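import Crest.Agent.N228.I.Wall
import Crest.Agent.N228.Nk.Prof
import Crest.Agent.N228.Cf.Gen

/-! # Row 228 (helper72): profiles and pointwise inequalities for the sharp buffer -/

set_option autoImplicit false
set_option linter.unusedSectionVars false
open Set Filter Topology Function
open scoped ContDiff
open Crest.Agent.N222 Crest.Agent.N228.J Crest.Agent.N222.A Crest.Agent.N228.Cf

noncomputable section

namespace Crest.Agent.N228.I

/-- the stiff–soft–stiff profile -/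
theorem exists_prof {T K A η : ℝ} (hT : 0 < T) (hA : 0 < A) (hη : 0 < η) (hK : η ≤ K) :
    ∃ S : ℝ → ℝ, ContDiff ℝ ∞ S ∧ (∀ t, 0 < deriv S t) ∧ (∀ t, A ≤ deriv S t ∨ |S t| ≤ η) ∧
      S 0 = -K ∧ S (7 * T) = K ∧ -η ≤ S (T / 2) ∧ S (13 * T / 2) ≤ η := by
  obtain ⟨B, hAB, hB⟩ : ∃ B, A ≤ B ∧ K ≤ B * (T / 4) :=
    ⟨max A (K / (T / 4)), le_max_left _ _, (div_le_iff₀ (by positivity)).1 (le_max_right _ _)⟩
  have B0 : 0 < B := hA.trans_le hAB
  obtain ⟨τ, τ0, τ1, τ2⟩ : ∃ τ, 0 < τ ∧ τ ≤ B ∧ τ * (4 * T) ≤ η / 2 :=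
    ⟨min B (η / 2 / (4 * T)), by positivity, min_le_left _ _,
      (le_div_iff₀ (by positivity)).1 (min_le_right _ _)⟩
  obtain ⟨δ, δ0, δ1, δ2⟩ : ∃ δ, 0 < δ ∧ δ ≤ T / 4 ∧ B * δ ≤ η / 2 :=
    ⟨min (T / 4) (η / 2 / B), by positivity, min_le_left _ _,
      (le_div_iff₀' B0).1 (min_le_right _ _)⟩
  have fs := Nk.contDiff_prof' B τ δ
  have fd := fun L => (fs L).differentiable (by simp)
  have f1 := fun L t => τ0.trans_le (Nk.le_deriv_prof τ1 δ L t)
  have soft : ∀ L t, L ≤ 7 * T / 2 → |t| ≤ L + δ → |Nk.prof B τ δ (L, t)| ≤ η := fun L t hL ht =>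
    (Nk.abs_prof_le τ0.le τ1 δ0 ht).trans (by nlinarith)
  have big : K ≤ Nk.prof B τ δ (3 * T, 7 * T / 2) := by
    have h1 := (convex_Ici (3 * T + δ)).mul_sub_le_image_sub_of_le_deriv
      (fs (3 * T)).continuous.continuousOn (fd _).differentiableOn (C := B)
      (fun t ht => Nk.prof_stiff τ1 δ0 ((interior_subset ht).trans (le_abs_self _))) (3 * T + δ)
      self_mem_Ici (7 * T / 2) (show 3 * T + δ ≤ _ by linarith) (by linarith)
    have h2 := monotone_of_deriv_nonneg (fd (3 * T)) (fun t => (f1 _ t).le)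
      (show 0 ≤ 3 * T + δ by positivity)
    simp only [Nk.prof_zero] at h2
    nlinarith
  obtain ⟨L, ⟨s1, s2⟩, hs⟩ := intermediate_value_Icc' (show 3 * T ≤ 7 * T / 2 by linarith)
    (f := fun L => Nk.prof B τ δ (L, 7 * T / 2)) ((Nk.contDiff_prof B τ δ).continuous.comp
      (continuous_id.prodMk continuous_const)).continuousOn ⟨((le_abs_self _).trans
      (soft _ _ le_rfl (by rw [abs_of_pos (by positivity)]; linarith))).trans hK, big⟩
  have e : ∀ t, deriv (fun t => Nk.prof B τ δ (L, t - 7 * T / 2)) t =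
      deriv (fun s => Nk.prof B τ δ (L, s)) (t - 7 * T / 2) := fun t =>
    deriv_comp_sub_const (f := fun s => Nk.prof B τ δ (L, s)) ..
  refine ⟨fun t => Nk.prof B τ δ (L, t - 7 * T / 2), (fs L).comp (contDiff_id.sub contDiff_const),
    fun t => e t ▸ f1 _ _, fun t => ?_, ?_, ?_, ?_, ?_⟩
  · rw [e]
    exact (le_total (L + δ) |t - 7 * T / 2|).imp (fun h => hAB.trans (Nk.prof_stiff τ1 δ0 h))
      (soft _ _ s2)
  · simp only [zero_sub, Nk.prof_neg]; exact congrArg Neg.neg hs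
  · simp only [show 7 * T - 7 * T / 2 = 7 * T / 2 by ring]; exact hs
  · exact (abs_le.1 (soft _ _ s2 (abs_le.2 ⟨by linarith, by linarith⟩))).1
  · exact (abs_le.1 (soft _ _ s2 (abs_le.2 ⟨by linarith, by linarith⟩))).2

/-- a ramp of slope at most `1` -/
theorem exists_ramp {δ : ℝ} (hδ : 0 < δ) : ∃ r : ℝ → ℝ, ContDiff ℝ ∞ r ∧ ∀ t,
    0 ≤ r t ∧ r t ≤ 1 ∧ (t ≤ 0 → r t = 0) ∧ (1 + δ ≤ t → r t = 1) ∧
      ∃ e, HasDerivAt r e t ∧ e ^ 2 ≤ 1 := by
  have ii := fun a b => (Real.smoothTransition.continuous.comp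
    (continuous_id.div_const δ)).intervalIntegrable (μ := MeasureTheory.volume) a b
  have e : ∀ t, Nk.ramp δ t - Nk.ramp δ (t - 1) =
      ∫ s in (t - 1)..t, Real.smoothTransition (s / δ) := fun t =>
    intervalIntegral.integral_interval_sub_left (ii _ _) (ii _ _)
  refine ⟨fun t => Nk.ramp δ t - Nk.ramp δ (t - 1), (Nk.contDiff_ramp δ).sub
    ((Nk.contDiff_ramp δ).comp (contDiff_id.sub contDiff_const)), fun t => ⟨?_, ?_, fun h => ?_,
    fun h => ?_, _, (Nk.hasDerivAt_ramp δ t).sub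
      ((Nk.hasDerivAt_ramp δ (t - 1)).comp_sub_const t 1), ?_⟩⟩
  · exact (intervalIntegral.integral_nonneg (by linarith)
      fun s _ => Real.smoothTransition.nonneg _).trans_eq (e t).symm
  · simpa [← e] using intervalIntegral.integral_mono_on (show t - 1 ≤ t by linarith) (ii _ _)
      (continuous_const.intervalIntegrable _ _) fun s _ => Real.smoothTransition.le_one (s / δ)
  · simp only [Nk.ramp_eq_zero hδ h, Nk.ramp_eq_zero hδ (show t - 1 ≤ 0 by linarith), sub_zero]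
  · simp only [e]
    rw [intervalIntegral.integral_congr (g := fun _ => (1 : ℝ)) fun s hs =>
      Real.smoothTransition.one_of_one_le ((one_le_div hδ).2 (by
        rw [uIcc_of_le (by linarith)] at hs; linarith [hs.1]))]
    simp
  · nlinarith [Real.smoothTransition.nonneg (t / δ), Real.smoothTransition.le_one (t / δ),
      Real.smoothTransition.nonneg ((t - 1) / δ), Real.smoothTransition.le_one ((t - 1) / δ)]

/-- the sharp profile `c tan (x₀ t)` -/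
theorem exists_tan {c K : ℝ} (hc : 0 < c) (hK : 0 < K) : ∃ g : ℝ → ℝ,
    ContDiffOn ℝ ∞ g (Icc (-1) 1) ∧ g 1 = K ∧ g (-1) = -K ∧ ∀ t ∈ Icc (-1 : ℝ) 1, |g t| ≤ K ∧
      ∃ e, HasDerivAt g e t ∧ 0 ≤ e ∧ 2 * c * e ≤ Real.pi * (c ^ 2 + g t ^ 2) := by
  set x := Real.arctan (K / c)
  have x0 : 0 < x := Real.arctan_pos.2 (by positivity)
  have x1 : x < Real.pi / 2 := Real.arctan_lt_pi_div_two _
  have m : ∀ t ∈ Icc (-1 : ℝ) 1, x * t ∈ Ioo (-(Real.pi / 2)) (Real.pi / 2) := fun t ht =>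
    ⟨by nlinarith [ht.1], by nlinarith [ht.2]⟩
  have co : ∀ t ∈ Icc (-1 : ℝ) 1, Real.cos (x * t) ≠ 0 := fun t ht =>
    (Real.cos_pos_of_mem_Ioo (m t ht)).ne'
  have g1 : c * Real.tan (x * 1) = K := by rw [mul_one, Real.tan_arctan]; field_simp
  have g2 : c * Real.tan (x * -1) = -K := by rw [mul_neg, Real.tan_neg, mul_neg, g1]
  refine ⟨fun t => c * Real.tan (x * t), fun t ht => (contDiffAt_const.mul
    ((Real.contDiffAt_tan.2 (co t ht)).comp t
      (contDiffAt_const.mul contDiffAt_id))).contDiffWithinAt, g1, g2, fun t ht => ⟨?_, _,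
    ((Real.hasDerivAt_tan (co t ht)).comp t ((hasDerivAt_id' t).const_mul x)).const_mul c,
    by positivity, ?_⟩⟩
  · have a1 := Real.strictMonoOn_tan.monotoneOn (m t ht) (m 1 ⟨by norm_num, le_rfl⟩)
      (mul_le_mul_of_nonneg_left ht.2 x0.le)
    have a2 := Real.strictMonoOn_tan.monotoneOn (m (-1) ⟨le_rfl, by norm_num⟩) (m t ht)
      (mul_le_mul_of_nonneg_left ht.1 x0.le)
    exact abs_le.2 ⟨g2 ▸ mul_le_mul_of_nonneg_left a2 hc.le, g1 ▸ mul_le_mul_of_nonneg_left a1 hc.le⟩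
  · rw [one_div, ← Real.inv_one_add_tan_sq (co t ht), inv_inv]
    have : 0 ≤ c ^ 2 + (c * Real.tan (x * t)) ^ 2 := by positivity
    nlinarith

/-! ### the gain, numerically -/

theorem num_wall {q y α s x ξ g A : ℝ} (q1 : 1 ≤ q) (ξ0 : 0 ≤ ξ) (ξ1 : ξ ≤ 1) (hx : ξ ≤ x)
    (hs : 0 ≤ s) (hA : 0 ≤ A) (ha : α ^ 2 ≤ ξ * g) (hg : g ≤ A * q ^ 3)
    (h : A ≤ s ∨ 4 * A ≤ y ^ 2) : 0 ≤ (q * y) ^ 2 + 2 * (y * α + q * (s * x - 0)) := by
  have q0 : 0 < q := one_pos.trans_le q1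
  have a1 := ha.trans (mul_le_mul_of_nonneg_left hg ξ0)
  have a2 : 0 ≤ q * (s * x) := mul_nonneg q0.le (mul_nonneg hs (ξ0.trans hx))
  rcases h with h | h
  · have a3 : q * (A * ξ) ≤ q * (s * x) :=
      mul_le_mul_of_nonneg_left (mul_le_mul h hx ξ0 hs) q0.le
    have b1 : 0 ≤ (q * y) ^ 2 + 2 * (y * α) + q * (A * ξ) := by
      refine le_of_mul_le_mul_left ?_ (pow_pos q0 2)
      nlinarith [sq_nonneg (q ^ 2 * y + α)]
    linarith
  · have a3 : α ^ 2 ≤ A * q ^ 4 := a1.trans ((mul_le_of_le_one_left (by positivity) ξ1).trans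
      (mul_le_mul_of_nonneg_left (pow_le_pow_right₀ q1 (by norm_num)) hA))
    have a4 : (2 * α) ^ 2 ≤ (q ^ 2 * y) ^ 2 := by
      nlinarith [mul_le_mul_of_nonneg_left h (pow_pos q0 4).le]
    have a5 : |2 * α| * |y| ≤ |q ^ 2 * y| * |y| :=
      mul_le_mul_of_nonneg_right (sq_le_sq.1 a4) (abs_nonneg _)
    rw [← abs_mul, ← abs_mul, abs_of_nonneg (a := q ^ 2 * y * y) (by nlinarith [sq_nonneg (q * y)])]
      at a5
    nlinarith [neg_abs_le (2 * α * y)]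

theorem num_stiff {y β s x ξ B A ε : ℝ} (ξ0 : 0 ≤ ξ) (hx : ξ ≤ x) (hε : 0 < ε) (hA : 0 ≤ A)
    (hb : β ^ 2 ≤ ξ * B) (hB : B ≤ ε * A) (h : A ≤ s) :
    -ε ≤ (1 * y) ^ 2 + 2 * (y * 0 + 1 * (s * x - β)) := by
  have a1 : A * ξ ≤ s * x := mul_le_mul h hx ξ0 (hA.trans h)
  have a2 : 2 * β ≤ A * ξ + ε := by
    refine le_of_sq_le_sq (le_trans ?_ (four_mul_le_sq_add _ _)) (by positivity)
    nlinarith [mul_le_mul_of_nonneg_left hB ξ0]
  nlinarith [sq_nonneg y, mul_nonneg hA ξ0]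

theorem num_soft {S h β s x c e g r η K : ℝ} (hx : 0 ≤ x) (hs : 0 ≤ s) (hc : 0 < c) (e0 : 0 ≤ e)
    (hS : |S| ≤ η) (hh : |h| ≤ K) (hb : β ^ 2 ≤ e ^ 2 * g)
    (he : 2 * c * e ≤ Real.pi * (c ^ 2 + h ^ 2)) (r0 : 0 ≤ r) (r1 : r ≤ 1)
    (hg : Real.pi ^ 2 * g ≤ (r * c) ^ 2) :
    -(r * c ^ 2) - 2 * η * K ≤ (1 * (S - h)) ^ 2 + 2 * ((S - h) * 0 + 1 * (s * x - β)) := by
  have p0 := Real.pi_pos
  have a1 : S * h ≤ η * K := (le_abs_self _).trans ((abs_mul _ _).trans_le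
    (mul_le_mul hS hh (abs_nonneg _) ((abs_nonneg _).trans hS)))
  have a2 : Real.pi * β ≤ e * (r * c) := by
    refine le_of_sq_le_sq ?_ (by positivity)
    nlinarith [mul_le_mul_of_nonneg_left hb (sq_nonneg Real.pi),
      mul_le_mul_of_nonneg_left hg (sq_nonneg e)]
  have a3 : 2 * β ≤ r * (c ^ 2 + h ^ 2) := by
    refine le_of_mul_le_mul_left ?_ p0
    nlinarith [mul_le_mul_of_nonneg_left he r0]
  nlinarith [mul_nonneg hs hx, sq_nonneg S, mul_le_of_le_one_left (sq_nonneg h) r1]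

variable {d : ℕ} {ι : Type} [Fintype ι] [DecidableEq ι] {X : Type} [TopologicalSpace X]
  {M : Imm d ι X} {b : ι → X → ℝ} {θ v : X → ℝ}

theorem xi_mem (M : Imm d ι X) (v : X → ℝ) (p : X) : 0 ≤ 1 - vv M.pre v p ^ 2 ∧
    1 - vv M.pre v p ^ 2 ≤ 1 ∧ 1 - vv M.pre v p ^ 2 ≤ xd M v v p := by
  have h1 := vv_sq_mul M v p
  have h2 : 0 < vv M.pre v p := M.vv_pos v p
  have h3 : vv M.pre v p ≤ 1 := M.vv_le_one v p
  have h4 := Imm.gam_self_nonneg (M := M) v p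
  refine ⟨by nlinarith, by nlinarith, ?_⟩
  rw [xd]
  nlinarith [mul_nonneg (mul_nonneg h2.le h4) (sub_nonneg.2 h3)]

theorem xd_sq_le (M : Imm d ι X) (v f : X → ℝ) (p : X) :
    xd M v f p ^ 2 ≤ (1 - vv M.pre v p ^ 2) * M.pre.gam f f p := by
  have h1 : M.pre.gam v f p ^ 2 ≤ M.pre.gam v v p * M.pre.gam f f p := by
    simpa only [Imm.gam_apply, sq] using Finset.sum_mul_sq_le_sq_mul_sq Finset.univ
      (fun a => M.pre.D a v p) fun a => M.pre.D a f p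
  have h2 := mul_le_mul_of_nonneg_left h1 (sq_nonneg (vv M.pre v p))
  rw [xd, mul_pow]
  linear_combination h2 + M.pre.gam f f p * vv_sq_mul M v p

theorem xd_rhs {q h : X → ℝ} {S : ℝ → ℝ} (hv : M.Sm v) (hq : M.Sm q) (hh : M.Sm h)
    (hS : ContDiff ℝ ∞ S) (p : X) : xd M v (fun p => q p * (S (v p) - h p)) p =
      (S (v p) - h p) * xd M v q p + q p * (deriv S (v p) * xd M v v p - xd M v h p) := by
  simp only [xd, Imm.gam_apply, Imm.D_mul (hq.diffAt p) (((hv.comp hS).sub hh).diffAt p),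
    Imm.D_sub ((hv.comp hS).diffAt p) (hh.diffAt p),
    Imm.D_comp (hv.diffAt p) (hS.differentiable (by simp) _).hasDerivAt, Finset.mul_sum,
    ← Finset.sum_sub_distrib, ← Finset.sum_add_distrib]
  exact Finset.sum_congr rfl fun _ _ => by ring

theorem xd_ev {f : X → ℝ} {p : X} {s : ℝ} (h : ∀ᶠ q in 𝓝 p, f q = s) : xd M v f p = 0 := by
  rw [xd, gam_comm, gam_ev h, mul_zero]

/-- the slope of the wall does not depend on its height -/
theorem exists_wall_bd (hθ : M.Sm θ) (hc : IsCompact {p | 0 ≤ θ p}) : ∃ A, 0 < A ∧ ∀ δ, 0 < δ →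
    δ ≤ 1 → ∀ p, M.pre.gam (fun q => wq δ (θ q)) (fun q => wq δ (θ q)) p ≤ A * wq δ (θ p) ^ 3 := by
  obtain ⟨C, hC⟩ := hc.exists_bound_of_continuousOn (hθ.gam hθ).continuous.continuousOn
  refine ⟨(32 / 3 * cc) ^ 2 * |C| + 1, by positivity, fun δ h0 h1 p => ?_⟩
  have q0 := pow_pos (one_pos.trans_le (one_le_wq h0 h1 (θ p))) 3
  rcases le_or_gt 0 (θ p) with hp | hp
  · obtain ⟨e, he, hb⟩ := hasDerivAt_wq h0 h1 (θ p)
    rw [gam_comp_self hθ he]
    have := mul_le_mul hb (((le_abs_self _).trans (hC p hp)).trans (le_abs_self C))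
      (Imm.gam_self_nonneg _ _) (by positivity)
    linarith
  · rw [gam_ev (s := 1) ((ev_lt hθ hp).mono fun q hq => wq_out (Or.inl (by linarith)))]
    positivity

end Crest.Agent.N228.I

end
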