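import Crest.Agent.N228.I.Ps
import Crest.Agent.N228.Cf.Zv
import Crest.Agent.N222.A.Slow

/-! # Row 228 (helper72): the oracle `pstep` on immersions -/

set_option autoImplicit false
set_option linter.unusedSectionVars false
open Set Filter Topology Function
open scoped ContDiff
open Crest.Agent.N222 Crest.Agent.N228.J Crest.Agent.N222.A Crest.Agent.N228.Cf

noncomputable section

namespace Crest.Agent.N228.I

variable {d : ℕ} {ι ι' ι'' : Type} [Fintype ι] [DecidableEq ι] [Fintype ι'] [DecidableEq ι']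
  [Fintype ι''] [DecidableEq ι''] {X : Type} [TopologicalSpace X]

/-- smooth functions for an atlas -/
def alg (ch : X → OpenPartialHomeomorph X (E (Fin d))) : Alg X where
  Sm := SmA ch
  const _ _ := contDiffOn_const
  add hf hh p := (hf p).add (hh p)
  mul hf hh p := (hf p).mul (hh p)
  comp _ hφ hU hf p := hφ.comp (hf p) fun _ _ => hU _

theorem alg_sm {M : Imm d ι X} {ch : X → OpenPartialHomeomorph X (E (Fin d))} (h : M.ch = ch)
    {f : X → ℝ} : (alg ch).Sm f ↔ M.Sm f := h ▸ Iff.rfl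

/-- the point calculus of an immersion -/
def pt (M : Imm d ι X) {ch : X → OpenPartialHomeomorph X (E (Fin d))} (h : M.ch = ch) (x : X) :
    Pt (alg ch) where
  p := x
  Γ f g := M.pre.gam f g x
  symm _ _ := gam_comm M _ _ x
  add hf hg _ := by
    simp only [Imm.gam_apply, Imm.D_add (((alg_sm h).1 hf).diffAt _) (((alg_sm h).1 hg).diffAt _),
      add_mul, Finset.sum_add_distrib]
  mul hf hg _ := by
    simp only [Imm.gam_apply, Imm.D_mul (((alg_sm h).1 hf).diffAt _) (((alg_sm h).1 hg).diffAt _),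
      Finset.mul_sum, ← Finset.sum_add_distrib]
    exact Finset.sum_congr rfl fun _ _ => by ring
  chain hf _ _ hd := by
    simp only [Imm.gam_apply, Imm.D_comp (((alg_sm h).1 hf).diffAt _) hd, Finset.mul_sum, mul_assoc]
  nonneg _ := Imm.gam_self_nonneg _ _

/-- the next state: nothing is lost on `U` -/
structure Nx (U : Set X) (M : Imm d ι X) (b : ι → X → ℝ) (M' : Imm d ι' X) (b' : ι' → X → ℝ) :
    Prop where
  ch : M'.ch = M.ch
  inj : Injective M.x → Injective M'.x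
  gam : ∀ p ∈ U, ∀ f g, M.Sm f → M.Sm g → M'.pre.gam f g p = M.pre.gam f g p
  eb : ∀ p ∈ U, M.pre.Eb b p ≤ M'.pre.Eb b' p

variable {M : Imm d ι X} {b : ι → X → ℝ} {M' : Imm d ι' X} {b' : ι' → X → ℝ} {M'' : Imm d ι'' X}
  {b'' : ι'' → X → ℝ} {U : Set X} {v m : X → ℝ} {f : ℝ → ℝ}

theorem Nx.refl (U : Set X) (M : Imm d ι X) (b : ι → X → ℝ) : Nx U M b M b :=
  ⟨rfl, id, fun _ _ _ _ _ _ => rfl, fun _ _ => le_rfl⟩

theorem Nx.trans (h : Nx U M b M' b') (h' : Nx U M' b' M'' b'') : Nx U M b M'' b'' :=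
  ⟨h'.ch.trans h.ch, h'.inj ∘ h.inj, fun p hp f g hf hg => (h'.gam p hp f g
    (by rwa [Imm.Sm, h.ch]) (by rwa [Imm.Sm, h.ch])).trans (h.gam p hp f g hf hg),
    fun p hp => (h.eb p hp).trans (h'.eb p hp)⟩

/-- a step with `v` locally constant on `U` -/
theorem exists_nx (hb : ∀ c, M.Sm (b c)) (tb : M.pre.Tan b) (hv : M.Sm v) (hm : M.Sm m) {R : ℝ}
    (hR : ∀ p, |v p| ≤ R) (hf : ContDiff ℝ ∞ f)
    (h : ∀ p ∈ U, (∀ᶠ q in 𝓝 p, v q = v p) ∧ f (v p) = 0 ∧ deriv f (v p) = 0) :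
    ∃ (M' : Imm d (Option (ι × Fin 3)) X) (b' : Option (ι × Fin 3) → X → ℝ),
      Step M b v m f M' b' ∧ Nx U M b M' b' := by
  obtain ⟨M', b', δ, hs, hδ, hx⟩ := exists_step hb tb hv hm hR hf
  refine ⟨M', b', hs, hs.ch, fun hi p q e => hi (PiLp.ext fun a => mul_left_cancel₀ hδ.ne'
    (by rw [← hx, ← hx, e])), fun p hp g k hg hk => ?_, fun p hp => ?_⟩
  · rw [hs.gam_of_grad hv hg hk (gam_ev (h p hp).1 v), (h p hp).2.1]; simp
  · have e1 : vv M.pre v p = 1 := by simp [vv, gam_ev (h p hp).1 v]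
    have e2 : hh M b v p = 0 := (QQ_congr (h p hp).1).trans (QQ_const M b _ p)
    simpa [nf, xd, gam_ev (h p hp).1, e1, e2, (h p hp).2] using hs.le hv p 0

/-- **the oracle `pstep`** -/
theorem o1 [T2Space X] (hb : ∀ c, M.Sm (b c)) (tb : M.pre.Tan b) {om Q σ a : X → ℝ} (ho : M.Sm om)
    (hc : IsCompact {p | om p ≤ 5}) (hQ : M.Sm Q) (hσ : M.Sm σ) (ha : M.Sm a) {κ z s u0 ε : ℝ}
    (hκ : 0 < κ) (Q0 : ∀ x, κ ≤ Q x) (hz : 0 ≤ z) (σ0 : ∀ x, 0 ≤ σ x ∧ σ x ≤ s)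
    (h1 : ∀ x, 1 ≤ om x → σ x = 0 ∧ a x ≤ 0) (hu : 0 < u0) (hε : 0 < ε) :
    ∃ (v m : X → ℝ) (M' : Imm d (Option (ι × Fin 3)) X) (b' : Option (ι × Fin 3) → X → ℝ),
      Step M b v m (cq z) M' b' ∧ Nx {p | 5 ≤ om p} M b M' b' ∧ M.Sm v ∧ ∀ x, 0 ≤ v x ∧
      (u0 + v x) ^ 2 ≤ u0 ^ 2 + 4 * s ∧ (5 ≤ om x → v x = 0) ∧ (A.cw * M.pre.gam om om x ≤ κ →
        ∀ j, 0 ≤ j → M.pre.gam Q Q x ≤ Q x ^ 3 / 81 → M.pre.gam σ σ x ≤ j * σ x →
          Real.exp (z * v x ^ 2 / 2) * (M.pre.Eb b x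
            + slow (u0 + v x) (√(1 + M.pre.gam v v x)) (Q x) (σ x)
              ((u0 + v x) ^ 2 / 4 - u0 ^ 2 / 4 - σ x) j (a x) (M.pre.gam v a x)
            + A.zg d z (u0 + v x) (√(1 + M.pre.gam v v x)) (v x) (a x) - ε) ≤ M'.pre.Eb b' x) := by
  have sg : ContDiff ℝ ∞ fun t : ℝ => (5 - t) / 4 := by fun_prop
  have hθ := ho.comp sg
  have hc' : IsCompact {p | 0 ≤ (5 - om p) / 4} := by
    convert hc using 3; constructor <;> intro <;> linarith
  obtain ⟨C, hC⟩ := hc'.exists_bound_of_continuousOn ha.continuous.continuousOn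
  have s0 := le_max_right s 0
  obtain ⟨η, η0, η1, η2⟩ : ∃ η, 0 < η ∧ η ≤ 1 ∧ (2 / u0 + |C| * (u0 + max s 0 + 1) + 1) * η ≤ ε :=
    ⟨min 1 (ε / (2 / u0 + |C| * (u0 + max s 0 + 1) + 1)), by positivity, min_le_left _ _,
      (le_div_iff₀' (by positivity)).1 (min_le_right _ _)⟩
  obtain ⟨y, v, y0, y1, hv, H⟩ := ps_sol hb hθ hc' hQ hσ hκ Q0
    (fun p => ⟨(σ0 p).1, (σ0 p).2.trans (le_max_left s 0)⟩)
    (fun p hp => (h1 p (by linarith)).1) hu s0 η0
  have v0 := fun p => (H p).1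
  have v1 : ∀ p, u0 + v p ≤ u0 + max s 0 + 1 := fun p =>
    le_of_sq_le_sq ((H p).2.1.trans (by nlinarith [sq_nonneg (max s 0 - 1)])) (by positivity)
  have sq := hQ.mul (hθ.comp (contDiff_wq y0 y1))
  obtain ⟨M', b', hs, hn⟩ := exists_nx (U := {p | 5 ≤ om p}) hb tb hv
    (sm_mm hb sq hσ ha hv v0 hu) (R := max s 0 + 1)
    (fun p => abs_le.2 ⟨by linarith [v0 p], by linarith [v1 p]⟩) (contDiff_cq z) fun p hp => by
      have h0 : (5 - om p) / 4 < 1 / 16 := by linarith [show 5 ≤ om p from hp]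
      rw [(H p).2.2.1 h0.le, deriv_cq]
      exact ⟨(ev_lt hθ h0).mono fun q hq => (H q).2.2.1 hq.le, by simp [cq], by simp⟩
  refine ⟨v, _, M', b', hs, hn, hv, fun x => ⟨v0 x, ?_, fun h => (H x).2.2.1 (by linarith),
    fun k1 j j0 k2 k3 => le_trans (mul_le_mul_of_nonneg_left ?_ (Real.exp_pos _).le)
      (hs.gen_zg sq hσ ha hv v0 hu hz x)⟩⟩
  · simpa only [max_eq_left ((σ0 x).1.trans (σ0 x).2)] using (H x).2.1
  have q1 := fun p => one_le_wq y0 y1 ((5 - om p) / 4)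
  have sl := fun j j0 => slow_le X _ (pt M rfl x) _ σ a v u0 j sq hσ ha hv
    (fun p => mul_pos (hκ.trans_le (Q0 p)) (one_pos.trans_le (q1 p))) (fun p => (σ0 p).1) v0 hu j0
    (gam_wall hθ hQ y0 y1 (hκ.le.trans (Q0 x)) k2 (by
      rw [gam_comp_self ho (((hasDerivAt_id' _).const_sub 5).div_const 4)]
      rw [A.cw] at k1
      linarith [Q0 x]))
  simp only [pt] at sl
  have e1 : (2 / u0 + |a x| * (u0 + v x)) *
      |dfc M.pre b (fun q => Q q * wq y ((5 - om q) / 4)) σ v u0 x|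
      + dfc M.pre b (fun q => Q q * wq y ((5 - om q) / 4)) σ v u0 x ^ 2 ≤ ε := by
    rcases le_or_gt 0 ((5 - om x) / 4) with h | h
    · have a1 := mul_le_mul (add_le_add_right (mul_le_mul ((hC x h).trans (le_abs_self C)) (v1 x)
        (by linarith [v0 x]) (abs_nonneg _)) (2 / u0)) (H x).2.2.2.1 (abs_nonneg _) (by positivity)
      rw [Real.norm_eq_abs] at a1
      rw [← sq_abs]
      nlinarith [(H x).2.2.2.1, abs_nonneg
        (dfc M.pre b (fun q => Q q * wq y ((5 - om q) / 4)) σ v u0 x)]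
    · rw [(H x).2.2.2.2 (by linarith)]; simpa using hε.le
  rcases le_total 1 (om x) with h | h
  · have a1 := sl 0 le_rfl (by simpa only [(h1 x h).1, mul_zero] using k3)
    rw [(h1 x h).1] at a1 ⊢
    have a2 := slow_mono (U := u0 + v x) (G := M.pre.gam v a x)
      (r := (u0 + v x) ^ 2 / 4 - u0 ^ 2 / 4 - 0) (Real.one_le_sqrt.2 (le_add_of_nonneg_right
        (Imm.gam_self_nonneg (M := M) v x))) (hκ.le.trans (Q0 x))
      (le_mul_of_one_le_right (hκ.le.trans (Q0 x)) (q1 x)) (by nlinarith [v0 x]) j0 (h1 x h).2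
    linarith
  · have a1 := sl j j0 k3
    rw [wq_out (Or.inr (by linarith)), mul_one] at a1
    linarith

end Crest.Agent.N228.I

end
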