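import Crest.Agent.N228.I.Buf

/-! # Row 228 (helper72): the sharp buffer in the shape of `N228.H.W3.buf` -/

set_option autoImplicit false
set_option linter.unusedSectionVars false
open Set Filter Topology Function
open scoped ContDiff
open Crest.Agent.N222 Crest.Agent.N228.J Crest.Agent.N222.A Crest.Agent.N228.Cf

noncomputable section

namespace Crest.Agent.N228.I

variable {d : ℕ} {ι : Type} [Fintype ι] [DecidableEq ι] {X : Type} [TopologicalSpace X]
  [T2Space X] {M : Imm d ι X} {b : ι → X → ℝ}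

/-- the band `m0 ≤ m ≤ m1` becomes long; take the graph of `v` with `m = W (h - G)`, `z = v - T` -/
theorem o3 (hb : ∀ a, M.Sm (b a)) {m th : X → ℝ} (hm : M.Sm m) (ht : M.Sm th)
    (hc : IsCompact {p | 0 ≤ th p}) {m0 m1 σ T ε : ℝ} (h01 : m0 < m1) (hσ : 0 ≤ σ) (hT : 0 < T)
    (hε : 0 < ε) (h0 : ∀ p, th p ≤ 1 → m p ≤ m0) :
    ∃ v G : X → ℝ, M.Sm v ∧ M.Sm G ∧ ∀ p, |v p| ≤ 8 * T ∧
      (th p ≤ 0 → (∀ᶠ q in 𝓝 p, v q = 0) ∧ G p = 0 ∧ hh M b v p = 0) ∧ (m p ≤ m0 → v p ≤ T) ∧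
      (m1 ≤ m p → 5 * T ≤ v p) ∧ (m p ≤ m0 ∨ m1 ≤ m p → -ε ≤ bgain M b v G p) ∧
      ((m0 ≤ m p → m p ≤ m1 → M.pre.gam m m p ≤ σ) →
        -ε - 48 * σ / (m1 - m0) ^ 2 ≤ bgain M b v G p) := by
  obtain ⟨r, sr, hr⟩ := exists_ramp (δ := 1 / 50) (by norm_num)
  have l0 := sub_pos.2 h01
  set t : X → ℝ := fun p => (m p - m0) / (m1 - m0) with e
  have st : M.Sm t := hm.comp (g := fun s => (s - m0) / (m1 - m0)) (by fun_prop)
  have t0 : ∀ p, t p ≤ 0 ↔ m p ≤ m0 := fun p => by simp [e, div_nonpos_iff, l0.le, l0.not_ge]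
  have t1 : ∀ p, 1 ≤ t p ↔ m1 ≤ m p := fun p => by simp [e, one_le_div l0]
  set ψ : X → ℝ := fun p => 2 * r (17 / 16 * t p - 17 / 800) - 1 with hψ
  have lo : ∀ p, t p ≤ 1 / 50 → ψ p = -1 := fun p h => by
    simp only [hψ, (hr _).2.2.1 (show 17 / 16 * t p - 17 / 800 ≤ 0 by linarith)]; ring
  have hi : ∀ p, 49 / 50 ≤ t p → ψ p = 1 := fun p h => by
    simp only [hψ, (hr _).2.2.2.1 (show 1 + 1 / 50 ≤ 17 / 16 * t p - 17 / 800 by linarith)]; ring
  have sθ := (Imm.sm_const 2).mul ht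
  have D : BufD M (fun p => 2 * th p) ψ (fun p => ct 50 0 (t p)) fun p => ct 50 (-49) (t p) :=
    ⟨sθ, st.comp (g := fun s => 2 * r (17 / 16 * s - 17 / 800) - 1) (by fun_prop),
      st.comp (contDiff_ct _ _), st.comp (contDiff_ct _ _), by simpa using hc,
      fun p => ⟨⟨by simp only [hψ]; linarith [(hr (17 / 16 * t p - 17 / 800)).1],
        by simp only [hψ]; linarith [(hr (17 / 16 * t p - 17 / 800)).2.1]⟩,
        ⟨ct_nonneg _ _ _, ct_le_one _ _ _⟩, ct_nonneg _ _ _, ct_le_one _ _ _⟩,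
      fun p hp => by
        have := (t0 p).2 (h0 p (by linarith))
        exact Or.inl ⟨lo p (by linarith), ct_zero (by linarith)⟩,
      fun p hp => (ev_gt st (not_le.1 (mt (lo p) hp))).mono fun q hq => ct_one (by linarith),
      fun p hp => (ev_lt st (not_le.1 (mt (hi p) hp))).mono fun q hq => ct_zero (by linarith)⟩
  have c0 : 0 < 48 * σ / (m1 - m0) ^ 2 + ε / 2 := by positivity
  obtain ⟨v, G, sv, sG, H⟩ := D.buf hb (Real.sqrt_pos.2 c0) hT (half_pos hε)
  have out : ∀ p, t p < 1 / 50 ∨ 49 / 50 < t p → -ε ≤ bgain M b v G p := fun p hp => by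
    have := (H p).2.2.2.2 0 le_rfl zero_le_one (by
      rcases hp with hp | hp
      · simp [gam_ev ((ev_lt st hp).mono fun q hq => lo q hq.le)]
      · simp [gam_ev ((ev_gt st hp).mono fun q hq => hi q hq.le)])
    linarith
  refine ⟨v, G, sv, sG, fun p => ⟨(H p).1, fun h => ?_,
    fun h => (H p).2.2.1 (ct_zero (by linarith [(t0 p).2 h])),
    fun h => (H p).2.2.2.1 (ct_one (by linarith [(t1 p).2 h])),
    fun h => out p (h.imp (fun h => by linarith [(t0 p).2 h]) fun h => by linarith [(t1 p).2 h]),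
    fun h => ?_⟩⟩
  · have e1 : ∀ᶠ q in 𝓝 p, v q = 0 := (ev_lt ht (show th p < 1 / 32 by linarith)).mono
      fun q hq => by
        rw [((H q).2.1 (by linarith)).1, lo q (by linarith [(t0 q).2 (h0 q (by linarith))])]
        ring
    exact ⟨e1, ((H p).2.1 (by linarith)).2, (QQ_congr e1).trans (QQ_const M b 0 p)⟩
  by_cases h' : t p < 1 / 50 ∨ 49 / 50 < t p
  · linarith [out p h', div_nonneg (mul_nonneg (by norm_num : (0 : ℝ) ≤ 48) hσ)
      (sq_nonneg (m1 - m0))]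
  push Not at h'
  obtain ⟨a, ha, a1⟩ := (hr (17 / 16 * t p - 17 / 800)).2.2.2.2
  have k1 := h (not_lt.1 fun k => by linarith [(t0 p).2 k.le, h'.1])
    (not_lt.1 fun k => by linarith [(t1 p).2 k.le, h'.2])
  have := (H p).2.2.2.2 1 zero_le_one le_rfl (by
    rw [one_mul, Real.sq_sqrt c0.le, hψ, gam_comp_self st
      (g := fun s => 2 * r (17 / 16 * s - 17 / 800) - 1) (((ha.comp (t p)
      (((hasDerivAt_id' _).const_mul (17 / 16)).sub_const (17 / 800))).const_mul 2).sub_const 1),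
      e, gam_comp_self hm (((hasDerivAt_id' _).sub_const m0).div_const (m1 - m0))]
    have k2 : Real.pi ^ 2 ≤ 10 := by nlinarith [Real.pi_lt_d2, Real.pi_pos]
    have k3 : (1 / (m1 - m0)) ^ 2 * M.pre.gam m m p ≤ σ / (m1 - m0) ^ 2 := by
      rw [div_pow, one_pow, one_div_mul_eq_div]
      exact div_le_div_of_nonneg_right k1 (sq_nonneg _)
    have k4 := mul_le_mul (show (2 * (a * (17 / 16 * 1))) ^ 2 ≤ 289 / 64 by nlinarith) k3
      (mul_nonneg (sq_nonneg _) (Imm.gam_self_nonneg _ _)) (by norm_num)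
    have k5 := mul_le_mul k2 k4 (mul_nonneg (sq_nonneg _) (mul_nonneg (sq_nonneg _)
      (Imm.gam_self_nonneg _ _))) (by norm_num)
    rw [mul_div_assoc]
    linarith [div_nonneg hσ (sq_nonneg (m1 - m0))])
  rw [Real.sq_sqrt c0.le] at this
  linarith

end Crest.Agent.N228.I

end
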