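import Crest.Agent.N228.I.Buf0
import Crest.Agent.N228.J.Fam

/-! # Row 228 (helper72): the sharp buffer, localised behind free walls -/

set_option autoImplicit false
set_option linter.unusedSectionVars false
open Set Filter Topology Function
open scoped ContDiff
open Crest.Agent.N222 Crest.Agent.N228.J Crest.Agent.N222.A Crest.Agent.N228.Cf

noncomputable section

namespace Crest.Agent.N228.I

variable {d : ℕ} {ι : Type} [Fintype ι] [DecidableEq ι] {X : Type} [TopologicalSpace X]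
  [T2Space X] {M : Imm d ι X} {b : ι → X → ℝ} {θ ψ ρ1 ρ3 : X → ℝ}

/-- the gain of the step with `m = W (h - G)` -/
def bgain (M : Imm d ι X) (b : ι → X → ℝ) (v G : X → ℝ) (p : X) : ℝ :=
  G p ^ 2 + 2 * xd M v G p - (ww M.pre v p * (hh M b v p - G p)) ^ 2

/-- the data of a buffer: `ψ` goes from `-1` to `1`, `ρ1` varies where `ψ = -1`, `ρ3` where
`ψ = 1`; `θ` localises (on both sides) -/
structure BufD (M : Imm d ι X) (θ ψ ρ1 ρ3 : X → ℝ) : Prop where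
  sθ : M.Sm θ
  sψ : M.Sm ψ
  s1 : M.Sm ρ1
  s3 : M.Sm ρ3
  cpt : IsCompact {p | 0 ≤ θ p}
  mem : ∀ p, ψ p ∈ Icc (-1 : ℝ) 1 ∧ ρ1 p ∈ Icc (0 : ℝ) 1 ∧ ρ3 p ∈ Icc (0 : ℝ) 1
  k0 : ∀ p, θ p < 2 → ψ p = -1 ∧ ρ1 p = 0 ∨ ψ p = 1 ∧ ρ3 p = 1
  k1 : ∀ p, ψ p ≠ -1 → ∀ᶠ q in 𝓝 p, ρ1 q = 1
  k3 : ∀ p, ψ p ≠ 1 → ∀ᶠ q in 𝓝 p, ρ3 q = 0

theorem BufD.ev (D : BufD M θ ψ ρ1 ρ3) {p : X} (hp : θ p < 2) :
    ∀ᶠ q in 𝓝 p, ψ q = ψ p ∧ ρ1 q = ρ1 p ∧ ρ3 q = ρ3 p := by
  rcases D.k0 p hp with h | h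
  · filter_upwards [ev_lt D.sθ hp, ev_lt D.sψ (s := 0) (by rw [h.1]; norm_num),
      D.k3 p (by rw [h.1]; norm_num)] with q h1 h2 h3
    have h4 := (D.k0 q h1).resolve_right fun h => by linarith [h.1]
    rw [h4.1, h4.2, h.1, h.2, h3, (D.k3 p (by rw [h.1]; norm_num)).self_of_nhds]
    exact ⟨rfl, rfl, rfl⟩
  · filter_upwards [ev_lt D.sθ hp, ev_gt D.sψ (s := 0) (by rw [h.1]; norm_num),
      D.k1 p (by rw [h.1]; norm_num)] with q h1 h2 h3
    have h4 := (D.k0 q h1).resolve_left fun h => by linarith [h.1]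
    rw [h4.1, h4.2, h.1, h.2, h3, (D.k1 p (by rw [h.1]; norm_num)).self_of_nhds]
    exact ⟨rfl, rfl, rfl⟩

/-- the barriers -/
theorem BufD.sol (D : BufD M θ ψ ρ1 ρ3) (hb : ∀ a, M.Sm (b a)) {T : ℝ} (hT : 0 < T) :
    ∃ C, 0 < C ∧ ∀ (S : ℝ → ℝ) (h : X → ℝ) (K δ : ℝ), ContDiff ℝ ∞ S → (∀ t, 0 < deriv S t) →
      M.Sm h → (∀ p, |h p| ≤ K ∧ (ψ p = 1 → h p = K) ∧ (ψ p = -1 → h p = -K)) → S 0 = -K →
      S (7 * T) = K → C - K ≤ S (T / 2) → S (13 * T / 2) ≤ K - C → 0 < δ →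
      ∃ (y : ℝ) (u : X → ℝ), 0 < y ∧ y ≤ 1 ∧ M.Sm u ∧ ∀ p,
        QQ M b u p = wq y (θ p) * (S (u p) - h p) ∧
        ρ3 p * (7 * T - T / 2 * ct 16 (-9) (θ p)) + -δ ≤ u p ∧
        u p ≤ T / 2 * ct 16 (-9) (θ p) * (1 - ρ1 p) + 7 * T * ρ1 p + δ := by
  have sβ := (Imm.sm_const (T / 2)).mul (D.sθ.comp (contDiff_ct 16 (-9)))
  have sm := D.s3.mul ((Imm.sm_const (7 * T)).sub sβ)
  have sp := (sβ.mul ((Imm.sm_const 1).sub D.s1)).add ((Imm.sm_const (7 * T)).mul D.s1)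
  have z : ∀ p, θ p < 9 / 16 → ∀ᶠ q in 𝓝 p, ρ3 q * (7 * T - T / 2 * ct 16 (-9) (θ q)) =
      7 * T * ρ3 p ∧ T / 2 * ct 16 (-9) (θ q) * (1 - ρ1 q) + 7 * T * ρ1 q = 7 * T * ρ1 p :=
    fun p hp => ((ev_lt D.sθ hp).and (D.ev (by linarith))).mono fun q hq => by
      rw [hq.2.2.1, hq.2.2.2, ct_zero (by linarith [hq.1])]; constructor <;> ring
  obtain ⟨C1, c1, h1⟩ := exists_bd D.cpt (sm_QQ hb sm).continuous fun p hp => by
    rw [QQ_congr ((z p (by linarith)).mono fun q hq => hq.1), QQ_const]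
  obtain ⟨C2, -, h2⟩ := exists_bd D.cpt (sm_QQ hb sp).continuous fun p hp => by
    rw [QQ_congr ((z p (by linarith)).mono fun q hq => hq.2), QQ_const]
  refine ⟨max C1 C2, lt_max_of_lt_left c1, fun S h K δ hS S0 hh hK e0 e1 e2 e3 hδ => ?_⟩
  have m1 := le_max_left C1 C2
  have m2 := le_max_right C1 C2
  have mo := strictMono_of_deriv_pos S0
  have m3 := min_le_left (S δ + K) (K - S (7 * T - δ))
  have m4 := min_le_right (S δ + K) (K - S (7 * T - δ))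
  obtain ⟨y, y0, y1, hy⟩ := exists_wq (m := min (S δ + K) (K - S (7 * T - δ))) (C := max C1 C2)
    (lt_min (by linarith [mo hδ]) (by linarith [mo (sub_lt_self (7 * T) hδ)]))
  have q1 := fun p => one_le_wq y0 y1 (θ p)
  have a0 := fun p => mul_nonneg (half_pos hT).le (ct_nonneg 16 (-9) (θ p))
  have a2 := fun p => mul_le_of_le_one_right (half_pos hT).le (ct_le_one 16 (-9) (θ p))
  have a1 : ∀ p, T / 2 * ct 16 (-9) (θ p) ≤
      T / 2 * ct 16 (-9) (θ p) * (1 - ρ1 p) + 7 * T * ρ1 p := fun p => by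
    nlinarith [a2 p, (D.mem p).2.1.1]
  have a3 : ∀ p, ρ3 p * (7 * T - T / 2 * ct 16 (-9) (θ p)) ≤ 7 * T - T / 2 * ct 16 (-9) (θ p) :=
    fun p => mul_le_of_le_one_left (by linarith [a2 p]) (D.mem p).2.2.2
  refine (exists_sol hb (N228.J.good_PhiS (S := fun z : ℝ × ℝ => S z.2)
    (hS.comp contDiff_snd) (C := univ) fun _ _ => S0)
    (c := fun p => (wq y (θ p), (0 : ℝ), h p))
    ((D.sθ.comp (contDiff_wq y0 y1)).prodMk ((Imm.sm_const _).prodMk hh))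
    (fun p => ⟨one_pos.trans_le (q1 p), mem_univ _⟩) (sm.add (Imm.sm_const (-δ))).continuous
    (sp.add (Imm.sm_const δ)).continuous (fun p => ⟨mem_univ _, mem_univ _, ?_⟩) (fun p => ?_)
    fun p => ?_).elim fun u H => ⟨y, u, y0, y1, H⟩
  · by_cases hp : ψ p = 1
    · rw [(D.k1 p (by rw [hp]; norm_num)).self_of_nhds]
      linarith [a0 p, a3 p]
    · rw [(D.k3 p hp).self_of_nhds]
      linarith [a0 p, a1 p]
  · have low : ∀ s, (∀ᶠ q in 𝓝 p, ρ3 q * (7 * T - T / 2 * ct 16 (-9) (θ q)) = s) →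
        S (s + -δ) ≤ h p → Sub M b (N228.J.PhiS fun z : ℝ × ℝ => S z.2)
          (fun p => (wq y (θ p), (0 : ℝ), h p))
          (fun q => ρ3 q * (7 * T - T / 2 * ct 16 (-9) (θ q)) + -δ) p := fun s k1 k2 =>
      sub_ev hb (k1.mono fun q hq => by rw [hq])
        (mul_nonpos_of_nonneg_of_nonpos (zero_le_one.trans (q1 p)) (sub_nonpos.2 k2))
    by_cases hp : ψ p = 1
    · rcases lt_or_ge (θ p) (9 / 16) with h3 | h3
      · refine low _ ((z p h3).mono fun q hq => hq.1) ?_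
        rw [(hK p).2.1 hp, ← e1]
        exact mo.monotone (by nlinarith [(D.mem p).2.2.2])
      refine sub_of_sm hb (sm.add (Imm.sm_const _)) ?_
      rw [QQ_add_const]
      refine le_trans ?_ (abs_le.1 (h1 p)).1
      simp only [N228.J.PhiS, (hK p).2.1 hp]
      rcases le_total (θ p) (5 / 8) with h4 | h4
      · rw [wq_top h3 h4]
        have := mo.monotone (show ρ3 p * (7 * T - T / 2 * ct 16 (-9) (θ p)) + -δ ≤ 7 * T - δ by
          linarith [a0 p, a3 p])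
        nlinarith [sq_nonneg y⁻¹]
      · have := a3 p
        rw [ct_one (by linarith)] at this ⊢
        nlinarith [q1 p, mo.monotone (show ρ3 p * (7 * T - T / 2 * 1) + -δ ≤ 13 * T / 2 by
          linarith)]
    · exact low 0 ((D.k3 p hp).mono fun q hq => by rw [hq, zero_mul]) (by
        linarith [(abs_le.1 (hK p).1).1, mo (show 0 + -δ < 0 by linarith)])
  · have up : ∀ s, (∀ᶠ q in 𝓝 p, T / 2 * ct 16 (-9) (θ q) * (1 - ρ1 q) + 7 * T * ρ1 q = s) →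
        h p ≤ S (s + δ) → Sup M b (N228.J.PhiS fun z : ℝ × ℝ => S z.2)
          (fun p => (wq y (θ p), (0 : ℝ), h p))
          (fun q => T / 2 * ct 16 (-9) (θ q) * (1 - ρ1 q) + 7 * T * ρ1 q + δ) p := fun s k1 k2 =>
      sup_ev hb (k1.mono fun q hq => by rw [hq])
        (mul_nonneg (zero_le_one.trans (q1 p)) (sub_nonneg.2 k2))
    by_cases hp : ψ p = -1
    · rcases lt_or_ge (θ p) (9 / 16) with h3 | h3
      · refine up _ ((z p h3).mono fun q hq => hq.2) ?_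
        rw [(hK p).2.2 hp, ← e0]
        exact mo.monotone (by nlinarith [(D.mem p).2.1.1])
      refine sup_of_sm hb (sp.add (Imm.sm_const δ)) ?_
      rw [QQ_add_const]
      refine (abs_le.1 (h2 p)).2.trans ?_
      simp only [N228.J.PhiS, (hK p).2.2 hp]
      rcases le_total (θ p) (5 / 8) with h4 | h4
      · rw [wq_top h3 h4]
        have := mo.monotone (show δ ≤ T / 2 * ct 16 (-9) (θ p) * (1 - ρ1 p) + 7 * T * ρ1 p + δ by
          linarith [a0 p, a1 p])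
        nlinarith [sq_nonneg y⁻¹]
      · have := a1 p
        rw [ct_one (by linarith)] at this ⊢
        nlinarith [q1 p, mo.monotone (show T / 2 ≤ T / 2 * 1 * (1 - ρ1 p) + 7 * T * ρ1 p + δ by
          linarith)]
    · exact up (7 * T) ((D.k1 p hp).mono fun q hq => by rw [hq]; ring) (by
        linarith [(abs_le.1 (hK p).1).2, mo (lt_add_of_pos_right (7 * T) hδ)])

/-- **the sharp buffer**: `v` jumps from `≤ T` to `≥ 5 T` at the price `π² Γ(ψ, ψ)`; it is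
constant (`0` or `7 T`) where `θ ≤ 1 / 16` -/
theorem BufD.buf (D : BufD M θ ψ ρ1 ρ3) (hb : ∀ a, M.Sm (b a)) {c T ε : ℝ} (hc : 0 < c)
    (hT : 0 < T) (hε : 0 < ε) : ∃ v G : X → ℝ, M.Sm v ∧ M.Sm G ∧ ∀ p, |v p| ≤ 8 * T ∧
      (θ p ≤ 1 / 16 → v p = 7 * T / 2 * (1 + ψ p) ∧ G p = 0) ∧ (ρ1 p = 0 → v p ≤ T) ∧
      (ρ3 p = 1 → 5 * T ≤ v p) ∧ ∀ r, 0 ≤ r → r ≤ 1 →
        Real.pi ^ 2 * M.pre.gam ψ ψ p ≤ (r * c) ^ 2 → -(r * c ^ 2) - ε ≤ bgain M b v G p := by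
  obtain ⟨C, C0, H⟩ := D.sol hb hT
  obtain ⟨A, A0, hA⟩ := exists_wall_bd D.sθ D.cpt
  obtain ⟨K, K1, K2⟩ : ∃ K, C + 1 ≤ K ∧ A + 2 ≤ K := ⟨max _ _, le_max_left _ _, le_max_right _ _⟩
  have K0 : 0 < K := by linarith
  obtain ⟨g, sg, g1, g2, hg⟩ := exists_tan hc K0
  have sh : M.Sm fun p => g (ψ p) := D.sψ.comp_on sg fun p => (D.mem p).1
  have ge : ∀ p, θ p < 2 → ∀ᶠ q in 𝓝 p, g (ψ q) = g (ψ p) := fun p hp =>
    (D.ev hp).mono fun q hq => by rw [hq.1]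
  obtain ⟨B, B0, hB⟩ := exists_bd D.cpt (sh.gam sh).continuous fun p hp =>
    gam_ev (ge p (by linarith)) _
  obtain ⟨η, η0, η1, η2⟩ : ∃ η, 0 < η ∧ η ≤ 1 ∧ η * (2 * K) ≤ ε / 2 :=
    ⟨min 1 (ε / 2 / (2 * K)), by positivity, min_le_left _ _,
      (le_div_iff₀ (by positivity)).1 (min_le_right _ _)⟩
  obtain ⟨A', a1, a2⟩ : ∃ A', A ≤ A' ∧ B ≤ ε / 2 * A' :=
    ⟨max A (B / (ε / 2)), le_max_left _ _, (div_le_iff₀' (half_pos hε)).1 (le_max_right _ _)⟩
  obtain ⟨S, sS, S0, S1, e0, e1, e2, e3⟩ := exists_prof hT (A0.trans_le a1) η0 (K := K)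
    (by linarith)
  have cp : ∀ σ : ℝ, σ ^ 2 = 1 → IsCompact ({p | 1 / 16 ≤ θ p ∧ θ p ≤ 1 / 8} ∩ {p | 0 < σ * ψ p}) :=
    fun σ hσ => by
      convert (isCompact_lev D.sθ D.cpt (s := 1 / 16) (by norm_num) (1 / 8)).inter_right
        (isClosed_le continuous_const (continuous_const.mul D.sψ.continuous) :
          IsClosed {p | 0 ≤ σ * ψ p}) using 1
      refine Set.ext fun p => and_congr_right fun hp => ⟨fun h => le_of_lt (α := ℝ) h,
        fun h => lt_of_le_of_ne (α := ℝ) h ?_⟩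
      rcases D.k0 p (by linarith [hp.2]) with k | k <;> rw [k.1] <;> intro h' <;> nlinarith
  have lo := fun (σ s : ℝ) (hσ : σ ^ 2 = 1) (hs : S s = σ * K) => loc_on hb
    (N228.J.good_PhiS (S := fun z : ℝ × ℝ => S z.2) (sS.comp contDiff_snd) (C := univ)
      fun _ _ => S0) D.sθ (isOpen_lt continuous_const (continuous_const.mul D.sψ.continuous))
    (cp σ hσ) (Imm.sm_const ((1 : ℝ), (0 : ℝ), σ * K)) (mem_univ s)
    (fun p _ _ => ⟨⟨one_pos, mem_univ _⟩, by simp [N228.J.PhiS, hs]⟩)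
    (Real.sqrt_pos.2 (half_pos hε))
  obtain ⟨δ1, δ10, hδ1⟩ := lo (-1) 0 (by norm_num) (by rw [e0]; ring)
  obtain ⟨δ2, δ20, hδ2⟩ := lo 1 (7 * T) (by norm_num) (by rw [e1]; ring)
  obtain ⟨δ, δ0, m1, m2, m3⟩ : ∃ δ, 0 < δ ∧ δ < δ1 ∧ δ < δ2 ∧ δ ≤ T / 2 :=
    ⟨min (min δ1 δ2 / 2) (T / 2), by positivity, (min_le_left _ _).trans_lt
      ((half_lt_self (by positivity)).trans_le (min_le_left _ _)), (min_le_left _ _).trans_lt
      ((half_lt_self (by positivity)).trans_le (min_le_right _ _)), min_le_right _ _⟩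
  obtain ⟨y, u, y0, y1, hu, Hu⟩ := H S _ K δ sS S0 sh
    (fun p => ⟨(hg _ (D.mem p).1).1, fun h => by rw [h, g1], fun h => by rw [h, g2]⟩) e0 e1
    (by linarith) (by linarith) δ0
  have b0 := fun p => mul_nonneg (half_pos hT).le (ct_nonneg 16 (-9) (θ p))
  have b1 := fun p => mul_le_of_le_one_right (half_pos hT).le (ct_le_one 16 (-9) (θ p))
  have u0 : ∀ p, -δ ≤ u p := fun p => by
    linarith [(Hu p).2.1, mul_nonneg (D.mem p).2.2.1 (sub_nonneg.2 ((b1 p).trans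
      (show T / 2 ≤ 7 * T by linarith)))]
  have u1 : ∀ p, u p ≤ 7 * T + δ := fun p => by
    nlinarith [(Hu p).2.2, b1 p, (D.mem p).2.1.2]
  have sq := D.sθ.comp (contDiff_wq y0 y1)
  set v : X → ℝ := fun q => 7 * T / 2 * (1 + ψ q) + ct 16 (-1) (θ q) * (u q - 7 * T / 2 * (1 + ψ q))
    with hv
  have ss := (Imm.sm_const (7 * T / 2)).mul ((Imm.sm_const 1).add D.sψ)
  have sv : M.Sm v := ss.add ((D.sθ.comp (contDiff_ct _ _)).mul (hu.sub ss))
  have vm : ∀ p lo hi, lo ≤ u p → u p ≤ hi → (θ p < 2 → lo ≤ 7 * T / 2 * (1 + ψ p) ∧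
      7 * T / 2 * (1 + ψ p) ≤ hi) → lo ≤ v p ∧ v p ≤ hi := fun p lo hi h1 h2 h3 => by
    rcases lt_or_ge (θ p) 2 with h | h
    · exact mem_cut ordConnected_Icc (h3 h) ⟨h1, h2⟩ (ct_nonneg _ _ _) (ct_le_one _ _ _)
    · simp only [hv, ct_one (a := 16) (c := -1) (t := θ p) (by linarith)]
      constructor <;> linarith
  have hd : ∀ p, |dft M b (N228.J.PhiS fun z : ℝ × ℝ => S z.2)
      (fun p => (wq y (θ p), (0 : ℝ), g (ψ p))) v p| ≤ √(ε / 2) := fun p => by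
    rcases le_or_gt (θ p) (1 / 8) with h | h
    · rcases D.k0 p (by linarith) with k | k
      · refine hδ1 _ u v hu (fun q hq h => ?_) p (by simp [k.1]) h
        have k := (D.k0 q (by linarith)).resolve_right fun k => by simp [k.1] at hq; linarith
        have := (Hu q).2.2
        rw [k.2, ct_zero (by linarith)] at this
        exact ⟨mem_univ _, (Hu q).1, by rw [wq_out (Or.inl h.le), k.1, g2, neg_one_mul],
          abs_lt.2 ⟨by linarith [u0 q], by linarith⟩, by simp [hv, k.1]⟩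
      · refine hδ2 _ u v hu (fun q hq h => ?_) p (by simp [k.1]) h
        have k := (D.k0 q (by linarith)).resolve_left fun k => by simp [k.1] at hq; linarith
        have := (Hu q).2.1
        rw [k.2, ct_zero (by linarith)] at this
        exact ⟨mem_univ _, (Hu q).1, by rw [wq_out (Or.inl h.le), k.1, g1, one_mul],
          abs_lt.2 ⟨by linarith, by linarith [u1 q]⟩, by simp only [hv, k.1]; ring⟩
    · rw [hv, dft_core D.sθ h (Hu p).1, abs_zero]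
      exact Real.sqrt_nonneg _
  refine ⟨v, fun p => wq y (θ p) * (S (v p) - g (ψ p)), sv, sq.mul ((sv.comp sS).sub sh),
    fun p => ⟨abs_le.2 (vm p _ _ (by linarith [u0 p]) (by linarith [u1 p]) fun _ => ?_),
      fun hp => ?_, fun hp => (vm p (-δ) T (u0 p) ?_ fun h => ?_).2,
      fun hp => (vm p (5 * T) (8 * T) ?_ (by linarith [u1 p]) fun h => ?_).1,
      fun r r0 r1 hr => ?_⟩⟩
  · constructor <;> nlinarith [(D.mem p).1.1, (D.mem p).1.2]
  · have : v p = 7 * T / 2 * (1 + ψ p) := by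
      simp only [hv, ct_zero (a := 16) (c := -1) (t := θ p) (by linarith), zero_mul, add_zero]
    refine ⟨this, ?_⟩
    simp only [this]
    rcases D.k0 p (by linarith) with k | k
    · rw [k.1, g2, add_neg_cancel, mul_zero, e0, sub_self, mul_zero]
    · rw [k.1, g1, show 7 * T / 2 * (1 + 1) = 7 * T by ring, e1, sub_self, mul_zero]
  · have := (Hu p).2.2
    rw [hp] at this
    linarith [b1 p]
  · rw [((D.k0 p h).resolve_right fun k => zero_ne_one
      (hp.symm.trans (D.k1 p (by rw [k.1]; norm_num)).self_of_nhds)).1]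
    constructor <;> linarith
  · have := (Hu p).2.1
    rw [hp] at this
    linarith [b1 p]
  · rw [((D.k0 p h).resolve_left fun k => one_ne_zero
      (hp.symm.trans (D.k3 p (by rw [k.1]; norm_num)).self_of_nhds)).1]
    constructor <;> linarith
  have h1 : (ww M.pre v p * (hh M b v p - wq y (θ p) * (S (v p) - g (ψ p)))) ^ 2 ≤ ε / 2 := by
    rw [← Real.sq_sqrt (half_pos hε).le]
    exact sq_le_sq' (abs_le.1 (hd p)).1 (abs_le.1 (hd p)).2
  have h2 := mul_nonneg r0 (sq_nonneg c)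
  obtain ⟨x0, x1, x2⟩ := xi_mem M v p
  rw [bgain, xd_rhs sv sq sh sS]
  rcases lt_or_ge (θ p) 2 with h3 | h3
  · rw [xd_ev (ge p h3)]
    have := num_wall (y := S (v p) - g (ψ p)) (one_le_wq y0 y1 (θ p)) x0 x1 x2 (S0 (v p)).le A0.le
      (xd_sq_le M v _ p) (hA y y0 y1 p) ((S1 (v p)).imp a1.trans fun h => by
        obtain ⟨h4, h5⟩ := abs_le.1 h
        rcases D.k0 p h3 with k | k
        · rw [k.1, g2]; nlinarith [sq_nonneg (A - 1)]
        · rw [k.1, g1]; nlinarith [sq_nonneg (A - 1)])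
    linarith
  · rw [xd_ev (f := fun p => wq y (θ p)) (s := 1) ((ev_gt D.sθ (one_lt_two.trans_le h3)).mono
      fun q hq => wq_out (Or.inr hq.le)), wq_out (Or.inr (by linarith))] at *
    rcases S1 (v p) with h | h
    · have := num_stiff (y := S (v p) - g (ψ p)) x0 x2 (half_pos hε) (A0.trans_le a1).le
        ((xd_sq_le M v _ p).trans (mul_le_mul_of_nonneg_left ((le_abs_self _).trans (hB p)) x0))
        a2 h
      linarith
    · obtain ⟨k1, e, k2, k3, k4⟩ := hg _ (D.mem p).1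
      have := num_soft (x0.trans x2) (S0 (v p)).le hc k3 h k1 ((xd_sq_le M v _ p).trans
        ((mul_le_of_le_one_left (Imm.gam_self_nonneg _ _) x1).trans_eq
          (gam_comp_self D.sψ k2))) k4 r0 r1 hr
      linarith

end Crest.Agent.N228.I

end
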