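import Crest.Agent.N228.J.Sol

/-! # Row 228, instance of A* (helper72): cutting off a solution which is close to a constant -/

set_option autoImplicit false
set_option linter.unusedSectionVars false
open Set Filter Topology Function
open scoped ContDiff
open Crest.Agent.N222 Crest.Agent.N228.J

noncomputable section

namespace Crest.Agent.N228.I

variable {d : ℕ} {ι : Type} [Fintype ι] [DecidableEq ι] {X : Type} [TopologicalSpace X]
  {M : Imm d ι X} {b : ι → X → ℝ} {P : Type} [NormedAddCommGroup P] [NormedSpace ℝ P]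
  {Φ : P × ℝ × ℝ → ℝ} {I : Set ℝ} {C : Set P} {c : X → P}

/-- the defect of the equation -/
def dft (M : Imm d ι X) (b : ι → X → ℝ) (Φ : P × ℝ × ℝ → ℝ) (c : X → P) (u : X → ℝ) (p : X) : ℝ :=
  A.ww M.pre u p * (QQ M b u p - Φ (c p, u p, M.vv u p))

theorem dft_congr {u w : X → ℝ} {c' : X → P} {p : X} (h : u =ᶠ[𝓝 p] w) (hc : c p = c' p) :
    dft M b Φ c u p = dft M b Φ c' w p := by
  have e : M.pre.gam u u p = M.pre.gam w w p := by simp only [Imm.gam_apply, Imm.D_congr h]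
  simp only [dft, A.ww, Imm.vv, e, QQ_congr h, hc, h.self_of_nhds]

theorem dft_const {s : ℝ} {p : X} (h : Φ (c p, s, 1) = 0) : dft M b Φ c (fun _ => s) p = 0 := by
  rw [dft, QQ_const, vv_const, h, sub_zero, mul_zero]

theorem mem_cut (hI : I.OrdConnected) {s t x : ℝ} (hs : s ∈ I) (ht : t ∈ I) (h0 : 0 ≤ x)
    (h1 : x ≤ 1) : s + x * (t - s) ∈ I := by
  have := hI.convex hs ht (sub_nonneg.2 h1) h0 (sub_add_cancel 1 x)
  rwa [show (1 - x) • s + x • t = s + x * (t - s) by simp only [smul_eq_mul]; ring] at this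

theorem cut_small [FiniteDimensional ℝ P] {U K : Set X} (hU : IsOpen U) (hb : ∀ a, M.Sm (b a))
    (hΦ : J.Good Φ I C) (hc : M.Sm c) (hC : ∀ p ∈ U, c p ∈ C) {s : ℝ} (hs : s ∈ I)
    (h0 : ∀ p ∈ U, Φ (c p, s, 1) = 0) {χ : X → ℝ} (hχ : M.Sm χ) (h01 : ∀ p, 0 ≤ χ p ∧ χ p ≤ 1)
    (hK : IsCompact K) (hKU : K ⊆ U) {ε : ℝ} (hε : 0 < ε) :
    ∃ δ > 0, ∀ u, M.Sm u →
      (∀ p ∈ U, u p ∈ I ∧ QQ M b u p = Φ (c p, u p, M.vv u p) ∧ |u p - s| < δ) →
      ∀ p ∈ K, |dft M b Φ c (fun q => s + χ q * (u q - s)) p| ≤ ε := by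
  let T := {u : X → ℝ // M.Sm u ∧ ∀ p ∈ U, u p ∈ I ∧ QQ M b u p = Φ (c p, u p, M.vv u p)}
  let t0 : T := ⟨fun _ => s, Imm.sm_const s, fun p hp => ⟨hs, by rw [QQ_const, vv_const, h0 p hp]⟩⟩
  have h1 : JC M.atl U fun t : Un U (Subtype.val : T → _) => (t : T).1 :=
    loc rfl hU hb hΦ (((M.smOn_univ rfl).2 hc).mono (subset_univ _))
      (fun t => ((M.smOn_univ rfl).2 t.2.1).mono (subset_univ _))
      (fun t p hp => ⟨hC p hp, (t.2.2 p hp).1⟩) fun t p hp => (t.2.2 p hp).2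
  have h2 := (JC.const hU s).add ((JC.of_sm rfl hU hχ).mul (h1.sub (JC.const hU s)))
  have hF : Fm M.atl U fun _ : Un U (Subtype.val : T → _) => M := Fm.fixed M rfl hU
  have h3 := (hF.pj.ww h2).mul ((hF.pj.hb (Y := fun _ => b) (fun a => JC.of_sm rfl hU (hb a)) h2
    (hF.vv h2)).sub (((JC.of_sm rfl hU hc).prodMk (h2.prodMk (hF.vv h2))).comp_on hΦ.isOpen' hΦ.sm
      fun t p hp => ⟨mem_univ _, mem_cut hΦ.ord hs (t.2.2 p hp).1 (h01 p).1 (h01 p).2, mem_univ _⟩))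
  obtain ⟨δ, hδ, h⟩ := Un.eventually_iff.1 (h3.eventually_norm hK hKU t0 hε)
  refine ⟨δ, hδ, fun u hu h4 p hp => ?_⟩
  have h5 := h ⟨u, hu, fun p hp => ⟨(h4 p hp).1, (h4 p hp).2.1⟩⟩ (fun p hp => (h4 p hp).2.2) p hp
  have e : dft M b Φ c (fun q => s + χ q * (s - s)) p = 0 := by
    simp only [sub_self, mul_zero, add_zero]; exact dft_const (h0 p (hKU hp))
  change ‖dft M b Φ c _ p - dft M b Φ c (fun q => s + χ q * (s - s)) p‖ < ε at h5
  rw [e, sub_zero] at h5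
  exact h5.le

end Crest.Agent.N228.I

end
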