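import Crest.Agent.N228.I.Buf
import Crest.Agent.N228.Cf.Gen
import Crest.Agent.N228.A.Defs

/-! # Row 228 (helper11): the oracle `buf` of `N228.A.Wd` for immersed manifolds with a drift -/

set_option autoImplicit false
set_option linter.unusedSectionVars false
open Set Filter Topology Function
open scoped ContDiff
open Crest.Agent.N222 Crest.Agent.N228.J Crest.Agent.N222.A Crest.Agent.N228.Cf

noncomputable section

namespace Crest.Agent.N228.I

variable {d : ℕ} {ι ι' : Type} [Fintype ι] [DecidableEq ι] [Fintype ι'] [DecidableEq ι']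
  {X : Type} [TopologicalSpace X] {M : Imm d ι X} {b : ι → X → ℝ}

theorem D_ev {w : X → ℝ} {p : X} {s : ℝ} (h : ∀ᶠ q in 𝓝 p, w q = s) (a : ι) :
    M.pre.D a w p = 0 := by
  rw [Imm.D_congr (g := fun _ => s) h, Imm.D_const]

theorem stepD_zero {v g : X → ℝ} {p : X} (h : ∀ a, M.pre.D a g p = 0) (c : Option ι) :
    (stepS M.pre v).D c g p = 0 := by
  cases c <;>
    simp [stepS, Pre.graph, Pre.dir, Finset.sum_apply, h]

/-- nothing changes where `v` vanishes identically -/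
theorem step_far {v m : X → ℝ} {f : ℝ → ℝ} {M' : Imm d ι' X} {b' : ι' → X → ℝ}
    (h : Step M b v m f M' b') {p : X} (hv : ∀ᶠ q in 𝓝 p, v q = 0) (hm0 : m p = 0) (f0 : f 0 = 0) :
    (∀ g k, M'.pre.gam g k p = M.pre.gam g k p) ∧ M'.pre.Eb b' p = M.pre.Eb b p := by
  have h1 : ∀ᶠ q in 𝓝 p, ∀ a, M.pre.D a v q = 0 :=
    hv.eventually_nhds.mono fun q hq a => D_ev hq a
  have h2 : ∀ᶠ q in 𝓝 p, vv M.pre v q = 1 := h1.mono fun q hq => by
    simp [vv, Imm.gam_apply, hq]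
  have h3 : ∀ a, ∀ᶠ q in 𝓝 p, M.pre.X v (vv M.pre v) a q = 0 := fun a => h1.mono fun q hq => by
    simp [Pre.X, hq]
  have h4 : hm M v p = 0 := by
    simp only [hm, Pre.dv, Finset.sum_apply]
    exact Finset.sum_eq_zero fun a _ => D_ev (h3 a) a
  have h5 : ∀ g, xd M v g p = 0 := fun g => by rw [xd, gam_ev hv, mul_zero]
  have h6 : hh M b v p = 0 := by
    have := h4
    simp only [hm] at this
    simp [hh, Pre.hb, this, Finset.sum_apply, fun a => (h3 a).self_of_nhds]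
  have h7 : bb M v p = 0 := by
    have k1 : ∀ a e, (stepS M.pre v).D a (M.pre.nu v (vv M.pre v) e) p = 0 := fun a e =>
      stepD_zero (fun a' => by
        cases e with
        | none => exact D_ev h2 a'
        | some e => exact D_ev (s := 0) ((h3 e).mono fun q hq => by simp [Pre.nu, hq]) a') a
    have k2 : ∀ a, (stepS M.pre v).D a (vv M.pre v) p = 0 := stepD_zero fun a => D_ev h2 a
    simp only [stepS] at k1 k2
    simp [bb, Pre.a2, Pre.A, Pre.gam, stepS, Finset.sum_apply, k1, k2]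
  have h0 : v p = 0 := hv.self_of_nhds
  refine ⟨fun g k => ?_, ?_⟩
  · rw [h.gam, h0, f0]
    simp [stepS, Pre.graph, Pre.gam, Pre.dir, Finset.sum_apply, fun a => (h3 a).self_of_nhds]
  · rw [h.eb, h0, f0, h7, h4, h5, nf, h6, hm0, h2.self_of_nhds]
    simp

/-- the conformal profile of the buffer -/
theorem exists_expand (n : ℝ) {lam ε : ℝ} (hl : 1 ≤ lam) (hε : 0 < ε) :
    ∃ (T : ℝ) (f : ℝ → ℝ), 0 < T ∧ 1 ≤ ε * T ^ 2 ∧ ContDiff ℝ ∞ f ∧ ∀ t,
      (t ≤ T → f t = 0) ∧ (2 * T ≤ t → Real.exp (-(2 * f t)) = lam⁻¹) ∧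
      lam⁻¹ ≤ Real.exp (-(2 * f t)) ∧ Real.exp (-(2 * f t)) ≤ 1 ∧
      n * deriv f t ^ 2 + 2 * |deriv (deriv f) t| ≤ ε := by
  have c1 : ContDiff ℝ ∞ (deriv cut) := (contDiff_infty_iff_deriv.1 Real.smoothTransition.contDiff).2
  have c2 : HasCompactSupport (deriv cut) :=
    HasCompactSupport.intro (isCompact_Icc (a := (0 : ℝ)) (b := 1)) fun s hs =>
      cut_deriv_zero (by
        simp only [mem_Icc, not_and_or, not_le] at hs
        exact hs.imp le_of_lt le_of_lt)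
  obtain ⟨C, hC⟩ := (contDiff_infty_iff_deriv.1 c1).2.continuous.bounded_above_of_compact_support
    c2.deriv
  set a := Real.log lam / 2 with ha
  have a0 : 0 ≤ a := div_nonneg (Real.log_nonneg hl) two_pos.le
  have l0 : 0 < lam := one_pos.trans_le hl
  have C0 : 0 ≤ C := (norm_nonneg _).trans (hC 0)
  set B := |n| * (a * cc) ^ 2 + 2 * (a * C) + 1 with hB
  have B1 : 1 ≤ B := le_add_of_nonneg_left (by positivity)
  obtain ⟨T, T0, hT⟩ : ∃ T : ℝ, 0 < T ∧ B ≤ ε * T ^ 2 :=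
    ⟨√(B / ε), Real.sqrt_pos.2 (by positivity), by
      rw [Real.sq_sqrt (by positivity), mul_div_cancel₀ _ hε.ne']⟩
  have d0 : ∀ t, HasDerivAt (fun t : ℝ => t / T - 1) (1 / T) t := fun t =>
    ((hasDerivAt_id' t).div_const T).sub_const 1
  have d1 : ∀ t, HasDerivAt (fun t => a * cut (t / T - 1)) (a * (deriv cut (t / T - 1) * (1 / T))) t :=
    fun t => ((((Real.smoothTransition.contDiff (n := 1)).differentiable one_ne_zero
      _).hasDerivAt).comp t (d0 t)).const_mul a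
  have e1 : deriv (fun t => a * cut (t / T - 1)) =
      fun t => a * (deriv cut (t / T - 1) * (1 / T)) := funext fun t => (d1 t).deriv
  have d2 : ∀ t, HasDerivAt (fun t => a * (deriv cut (t / T - 1) * (1 / T)))
      (a * (deriv (deriv cut) (t / T - 1) * (1 / T) * (1 / T))) t := fun t =>
    ((((c1.differentiable (by simp) _).hasDerivAt).comp t (d0 t)).mul_const _).const_mul a
  have el : Real.exp (-(2 * a)) = lam⁻¹ := by
    rw [ha, mul_div_cancel₀ _ two_ne_zero, Real.exp_neg, Real.exp_log l0]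
  refine ⟨T, fun t => a * cut (t / T - 1), T0, B1.trans hT,
    contDiff_const.mul (Real.smoothTransition.contDiff.comp (by fun_prop)), fun t => ⟨fun h => ?_,
    fun h => ?_, ?_, ?_, ?_⟩⟩
  · simp only [cut]
    rw [Real.smoothTransition.zero_of_nonpos (sub_nonpos.2 ((div_le_one T0).2 h)), mul_zero]
  · simp only [cut]
    rw [Real.smoothTransition.one_of_one_le (by
      rw [le_sub_iff_add_le, le_div_iff₀ T0]; linarith), mul_one, el]
  · rw [← el]
    exact Real.exp_le_exp.2 (by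
      nlinarith [mul_le_mul_of_nonneg_left (Real.smoothTransition.le_one (t / T - 1)) a0])
  · exact Real.exp_le_one_iff.2 (by
      nlinarith [mul_nonneg a0 (Real.smoothTransition.nonneg (t / T - 1))])
  · rw [e1, (d2 t).deriv]
    have k1 : (a * deriv cut (t / T - 1)) ^ 2 ≤ (a * cc) ^ 2 := by
      rw [mul_pow, mul_pow]
      exact mul_le_mul_of_nonneg_left (sq_le_sq' (abs_le.1 (abs_deriv_cut_le _)).1
        (abs_le.1 (abs_deriv_cut_le _)).2) (sq_nonneg a)
    have k2 : |a * deriv (deriv cut) (t / T - 1)| ≤ a * C := by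
      rw [abs_mul, abs_of_nonneg a0]
      exact mul_le_mul_of_nonneg_left (hC _) a0
    have k3 : n * (a * deriv cut (t / T - 1)) ^ 2 ≤ |n| * (a * cc) ^ 2 :=
      (mul_le_mul_of_nonneg_right (le_abs_self n) (sq_nonneg _)).trans
        (mul_le_mul_of_nonneg_left k1 (abs_nonneg n))
    have k4 : n * (a * (deriv cut (t / T - 1) * (1 / T))) ^ 2
        + 2 * |a * (deriv (deriv cut) (t / T - 1) * (1 / T) * (1 / T))| =
        (n * (a * deriv cut (t / T - 1)) ^ 2 + 2 * |a * deriv (deriv cut) (t / T - 1)|) / T ^ 2 := by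
      rw [show a * (deriv (deriv cut) (t / T - 1) * (1 / T) * (1 / T)) =
        a * deriv (deriv cut) (t / T - 1) * (1 / T ^ 2) by ring, abs_mul (a * _),
        abs_of_pos (by positivity : 0 < 1 / T ^ 2)]
      ring
    rw [k4, div_le_iff₀ (by positivity)]
    linarith

/-- **the oracle `buf`** -/
theorem o2 [T2Space X] (hb : ∀ a, M.Sm (b a)) (tb : M.pre.Tan b) {θ : X → ℝ} (hθ : M.Sm θ)
    {K : Set X} (hc : IsCompact K) (hK : ∀ p, 1 / 2 < θ p → p ∈ K) {Γm lam ε : ℝ} (hΓ : 0 ≤ Γm)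
    (hl : 1 ≤ lam) (hε : 0 < ε) :
    ∃ (M' : Imm d (Option (ι × Fin 3)) X) (b' : Option (ι × Fin 3) → X → ℝ) (δ : ℝ)
      (w Ω : X → ℝ), M'.ch = M.ch ∧ (∀ A, M'.Sm (b' A)) ∧ M'.pre.Tan b' ∧ 0 < δ ∧
      (∀ p a, M'.x p (some (a, 0)) = δ * M.x p a) ∧ M.Sm w ∧ ∀ p,
      (θ p ≤ 1 / 2 → (∀ g k, M'.pre.gam g k p = M.pre.gam g k p) ∧
        M'.pre.Eb b' p = M.pre.Eb b p) ∧
      (1 ≤ θ p → 4 ≤ w p) ∧ (θ p ≤ 1 / 2 → w p ≤ 0 ∧ Ω p = 1) ∧ lam⁻¹ ≤ Ω p ∧ Ω p ≤ 1 ∧
      (1 ≤ w p → Ω p = lam⁻¹) ∧ (∀ f, M.Sm f → M'.pre.gam f f p ≤ Ω p * M.pre.gam f f p) ∧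
      M'.pre.gam w w p ≤ ε ∧
      (θ p ≤ 1 / 2 ∨ 1 ≤ θ p → Ω p * (M.pre.Eb b p - ε) ≤ M'.pre.Eb b' p) ∧
      ((1 / 2 ≤ θ p → θ p ≤ 1 → M.pre.gam θ θ p ≤ Γm) →
        Ω p * (M.pre.Eb b p - ε - N228.A.cb * Γm) ≤ M'.pre.Eb b' p) := by
  set ψ : X → ℝ := fun p => 2 * ct 4 (-5 / 2) (θ p) - 1 with hψ
  have sθ : M.Sm fun p => 128 * θ p - 66 := ((Imm.sm_const _).mul hθ).sub (Imm.sm_const _)
  have D : BufD M (fun p => 128 * θ p - 66) ψ (fun p => ct 16 (-17 / 2) (θ p))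
      fun p => ct 8 (-7) (θ p) := by
    refine ⟨sθ, ((Imm.sm_const _).mul (hθ.comp (contDiff_ct _ _))).sub
      (Imm.sm_const _), hθ.comp (contDiff_ct _ _), hθ.comp (contDiff_ct _ _),
      hc.of_isClosed_subset (isClosed_le continuous_const sθ.continuous) fun p hp =>
        hK p (by linarith [show 0 ≤ 128 * θ p - 66 from hp]), fun p => ⟨⟨?_, ?_⟩, ⟨ct_nonneg _ _ _, ct_le_one _ _ _⟩,
        ct_nonneg _ _ _, ct_le_one _ _ _⟩, fun p hp => ?_, fun p hp => ?_, fun p hp => ?_⟩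
    · simp only [hψ]; linarith [ct_nonneg 4 (-5 / 2) (θ p)]
    · simp only [hψ]; linarith [ct_le_one 4 (-5 / 2) (θ p)]
    · exact Or.inl ⟨by simp only [hψ]; rw [ct_zero (by linarith)]; ring, ct_zero (by linarith)⟩
    · have : 5 / 8 < θ p := not_le.1 fun h => hp (by
        simp only [hψ]; rw [ct_zero (by linarith)]; ring)
      exact (ev_gt hθ this).mono fun q hq => ct_one (by linarith)
    · have : θ p < 7 / 8 := not_le.1 fun h => hp (by
        simp only [hψ]; rw [ct_one (by linarith)]; ring)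
      exact (ev_lt hθ this).mono fun q hq => ct_zero (by linarith)
  obtain ⟨T, f, T0, T1, sf, hf⟩ := exists_expand d hl (show 0 < ε / 4 by positivity)
  have c0 : 0 < N228.A.cb * Γm + ε / 4 := by unfold N228.A.cb; positivity
  obtain ⟨v, G, sv, sG, H⟩ := D.buf hb (Real.sqrt_pos.2 c0) T0 (show 0 < ε / 4 by positivity)
  have sm : M.Sm fun p => ww M.pre v p * (hh M b v p - G p) := (sm_ww sv).mul ((sm_hb hb sv).sub sG)
  obtain ⟨M', b', δ, S, δ0, hx⟩ := exists_step hb tb sv sm (R := 8 * T)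
    (fun p => (H p).1) sf
  have sw : M.Sm fun p => v p / T - 1 :=
    (sv.div (Imm.sm_const _) fun _ => T0.ne').sub (Imm.sm_const _)
  have key : ∀ p r, 0 ≤ r → r ≤ 1 →
      Real.pi ^ 2 * M.pre.gam ψ ψ p ≤ (r * √(N228.A.cb * Γm + ε / 4)) ^ 2 →
      Real.exp (-(2 * f (v p))) * (M.pre.Eb b p - ε - r * (N228.A.cb * Γm)) ≤ M'.pre.Eb b' p := by
    intro p r r0 r1 h
    have k1 := (H p).2.2.2.2 r r0 r1 h
    rw [Real.sq_sqrt c0.le, bgain] at k1
    refine le_trans (mul_le_mul_of_nonneg_left ?_ (Real.exp_pos _).le) (S.buf_le sv p)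
    obtain ⟨x0, x1⟩ : 0 ≤ 1 - vv M.pre v p ^ 2 ∧ 1 - vv M.pre v p ^ 2 ≤ 1 :=
      ⟨(xi_mem M v p).1, by linarith [sq_nonneg (vv M.pre v p)]⟩
    have k2 := (hf (v p)).2.2.2.2
    have k3 : deriv (deriv f) (v p) * (1 - vv M.pre v p ^ 2) ≤ |deriv (deriv f) (v p)| :=
      (mul_le_mul_of_nonneg_right (le_abs_self _) x0).trans
        (mul_le_of_le_one_right (abs_nonneg _) x1)
    nlinarith [mul_le_mul_of_nonneg_right r1 hε.le]
  have out : ∀ p, θ p < 5 / 8 ∨ 7 / 8 < θ p → M.pre.gam ψ ψ p = 0 := fun p hp => by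
    rcases hp with hp | hp
    · exact gam_ev (s := -1) ((ev_lt hθ hp).mono fun q hq => by
        simp only [hψ]; rw [ct_zero (by linarith)]; ring) ψ
    · exact gam_ev (s := 1) ((ev_gt hθ hp).mono fun q hq => by
        simp only [hψ]; rw [ct_one (by linarith)]; ring) ψ
  refine ⟨M', b', δ, fun p => v p / T - 1, fun p => Real.exp (-(2 * f (v p))), S.ch, S.sm, S.tan, δ0,
    hx, sw, fun p => ⟨fun h => ?_, fun h => ?_, fun h => ?_, (hf _).2.2.1, (hf _).2.2.2.1,
      fun h => (hf _).2.1 ?_, fun g hg => S.gam_le sv hg p, ?_, fun h => ?_, fun h => ?_⟩⟩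
  · have e1 : ∀ᶠ q in 𝓝 p, v q = 0 := (ev_lt hθ (show θ p < 33 / 64 by linarith)).mono
      fun q hq => by
        rw [((H q).2.1 (by linarith)).1]
        simp only [hψ]; rw [ct_zero (by linarith)]; ring
    refine step_far S e1 ?_ ((hf 0).1 T0.le)
    have e2 : hh M b v p = 0 := (QQ_congr (M := M) (b := b) (w := fun _ => 0) e1).trans
      (QQ_const M b 0 p)
    rw [e2, ((H p).2.1 (by linarith)).2, sub_zero, mul_zero]
  · have := (H p).2.2.2.1 (ct_one (by linarith))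
    rw [le_sub_iff_add_le, le_div_iff₀ T0]
    linarith
  · have := (H p).2.2.1 (ct_zero (by linarith))
    exact ⟨sub_nonpos.2 ((div_le_one T0).2 this), by simp [(hf _).1 this]⟩
  · rw [le_sub_iff_add_le, le_div_iff₀ T0] at h
    linarith
  · have e1 : HasDerivAt (fun t : ℝ => t / T - 1) (1 / T) (v p) :=
      ((hasDerivAt_id' _).div_const T).sub_const 1
    rw [gam_comp_self (S.sm_iff.2 sv) e1, S.gam, step_gam_vv sv]
    have k1 : Real.exp (-(2 * f (v p))) * (1 - vv M.pre v p ^ 2) ≤ 1 :=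
      mul_le_one₀ (hf _).2.2.2.1 (xi_mem M v p).1 (by linarith [sq_nonneg (vv M.pre v p)])
    refine (mul_le_of_le_one_right (sq_nonneg _) k1).trans ?_
    rw [div_pow, div_le_iff₀ (by positivity)]
    nlinarith [sq_nonneg T]
  · simpa using key p 0 le_rfl zero_le_one (by
      rw [out p (h.imp (fun h => by linarith) fun h => by linarith)]; simp)
  · have := key p 1 zero_le_one le_rfl (by
      rw [one_mul, Real.sq_sqrt c0.le]
      by_cases h' : θ p < 5 / 8 ∨ 7 / 8 < θ p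
      · rw [out p h', mul_zero]; exact c0.le
      · push Not at h'
        obtain ⟨e, he, he'⟩ := hasDerivAt_ct 4 (-5 / 2) (θ p)
        rw [gam_comp_self hθ ((he.const_mul 2).sub_const 1)]
        have k1 := h (by linarith [h'.1]) (by linarith [h'.2])
        have k2 : (2 * e) ^ 2 ≤ (8 * cc) ^ 2 := by
          rw [abs_of_pos (by norm_num : (0 : ℝ) < 4)] at he'
          exact sq_le_sq' (by linarith [(abs_le.1 he').1]) (by linarith [(abs_le.1 he').2])
        have k3 : Real.pi ^ 2 ≤ 16 := by nlinarith [Real.pi_lt_four, Real.pi_pos]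
        have k4 := mul_le_mul k2 k1 (Imm.gam_self_nonneg _ _) (sq_nonneg _)
        have k5 := mul_le_mul k3 k4 (mul_nonneg (sq_nonneg _) (Imm.gam_self_nonneg _ _))
          (by norm_num)
        unfold N228.A.cb
        nlinarith [mul_nonneg (sq_nonneg cc) hΓ])
    rwa [one_mul] at this

end Crest.Agent.N228.I

end
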