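import Crest.Agent.N228.I.Buf0
import Crest.Agent.N222.A.F5

/-! # Row 228 (helper72): the localised solution of the slow step -/

set_option autoImplicit false
set_option linter.unusedSectionVars false
open Set Filter Topology Function
open scoped ContDiff
open Crest.Agent.N222 Crest.Agent.N228.J Crest.Agent.N222.A Crest.Agent.N228.Cf

noncomputable section

namespace Crest.Agent.N228.I

variable {d : ℕ} {ι : Type} [Fintype ι] [DecidableEq ι] {X : Type} [TopologicalSpace X]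
  [T2Space X] {M : Imm d ι X} {b : ι → X → ℝ} {θ Q σ v : X → ℝ} {u0 : ℝ}

theorem dfc_eq {p : X} (h : u0 + v p ≠ 0) :
    dfc M.pre b Q σ v u0 p = dft M b (A.PhiS u0) (fun p => (Q p, σ p)) v p := by
  have e : QQ M b v p = M.pre.hb b v (vv M.pre v) p := rfl
  have e' : M.vv v p = vv M.pre v p := rfl
  simp only [dfc, dft, A.PhiS, beta, e, e']
  congr 1
  field_simp
  ring

theorem phi_ge {q s t w : ℝ} (hu : 0 < u0) (ht : 0 ≤ t) :
    -u0⁻¹ + q / 2 * (((u0 + t) ^ 2 - (4 * s + u0 ^ 2)) / (u0 + t)) ≤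
      A.PhiS u0 ((q, s), t, w) := by
  have h1 : (u0 + t)⁻¹ ≤ u0⁻¹ := inv_anti₀ hu (by linarith)
  have h2 : (1 - w ^ 2) * (u0 + t)⁻¹ ≤ (u0 + t)⁻¹ :=
    mul_le_of_le_one_left (by positivity) (by nlinarith)
  have h3 : ((u0 + t) ^ 2 - (4 * s + u0 ^ 2)) / (u0 + t) =
      u0 + t - (4 * s + u0 ^ 2) * (u0 + t)⁻¹ := by field_simp
  simp only [A.PhiS, h3]
  linarith

theorem phi_one {q s t : ℝ} (h : u0 + t ≠ 0) : A.PhiS u0 ((q, s), t, 1) =
    q / 2 * (((u0 + t) ^ 2 - (4 * s + u0 ^ 2)) / (u0 + t)) := by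
  simp only [A.PhiS]
  field_simp
  ring

/-- **the slow step behind a wall** -/
theorem ps_sol (hb : ∀ a, M.Sm (b a)) (hθ : M.Sm θ) (hc : IsCompact {p | 0 ≤ θ p}) (hQ : M.Sm Q)
    (hσ : M.Sm σ) {κ s ε : ℝ} (hκ : 0 < κ) (Q0 : ∀ p, κ ≤ Q p) (σ0 : ∀ p, 0 ≤ σ p ∧ σ p ≤ s)
    (h0 : ∀ p, θ p ≤ 1 → σ p = 0) (hu : 0 < u0) (hs : 0 ≤ s) (hε : 0 < ε) :
    ∃ (y : ℝ) (v : X → ℝ), 0 < y ∧ y ≤ 1 ∧ M.Sm v ∧ ∀ p, 0 ≤ v p ∧
      (u0 + v p) ^ 2 ≤ u0 ^ 2 + 4 * s ∧ (θ p ≤ 1 / 16 → v p = 0) ∧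
      |dfc M.pre b (fun q => Q q * wq y (θ q)) σ v u0 p| ≤ ε ∧
      (θ p < 1 / 16 → dfc M.pre b (fun q => Q q * wq y (θ q)) σ v u0 p = 0) := by
  obtain ⟨t, t0, ht⟩ : ∃ t, 0 ≤ t ∧ (u0 + t) ^ 2 = u0 ^ 2 + 4 * s :=
    ⟨√(u0 ^ 2 + 4 * s) - u0, sub_nonneg.2 (Real.le_sqrt_of_sq_le (by linarith)), by
      rw [add_sub_cancel, Real.sq_sqrt (by positivity)]⟩
  have z0 : ∀ q, A.PhiS u0 ((q, 0), 0, 1) = 0 := fun q => by rw [phi_one (by linarith)]; simp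
  obtain ⟨δ, δ0, hδ⟩ := loc_sol hb (A.good_PhiS (u0 := u0)) hθ hc (hQ.prodMk hσ)
    (show (0 : ℝ) ∈ Ioi (-u0) from neg_lt_zero.2 hu)
    (fun p hp => ⟨⟨hκ.trans_le (Q0 p), (σ0 p).1⟩, by rw [h0 p (by linarith), z0]⟩) hε
  have sp : M.Sm fun p => t * ct 16 (-9) (θ p) := (Imm.sm_const _).mul (hθ.comp (contDiff_ct _ _))
  obtain ⟨C, C0, hC⟩ := exists_QQ_bd hb hθ hc sp (s := 0) fun p hp => by
    rw [ct_zero (by linarith), mul_zero]
  obtain ⟨y, y0, y1, hy⟩ := exists_wq (m := κ / 2 * (δ / 2)) (C := C + u0⁻¹) (by positivity)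
  have q1 := fun p => one_le_wq y0 y1 (θ p)
  have q0 : ∀ p, 0 < Q p * wq y (θ p) := fun p =>
    mul_pos (hκ.trans_le (Q0 p)) (one_pos.trans_le (q1 p))
  have a0 := fun p => mul_nonneg t0 (ct_nonneg 16 (-9) (θ p))
  have up : ∀ p r, 0 ≤ r → 4 * σ p + u0 ^ 2 ≤ (u0 + r) ^ 2 →
      0 ≤ A.PhiS u0 ((Q p * wq y (θ p), σ p), r, 1) := fun p r r0 h => by
    rw [phi_one (by linarith)]
    exact mul_nonneg (half_pos (q0 p)).le (div_nonneg (sub_nonneg.2 h) (by linarith))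
  have sq := hQ.mul (hθ.comp (contDiff_wq y0 y1))
  have key : ∃ u, M.Sm u ∧ ∀ p, QQ M b u p = A.PhiS u0 ((Q p * wq y (θ p), σ p), u p, M.vv u p) ∧
      0 ≤ u p ∧ u p ≤ min (t * ct 16 (-9) (θ p) + δ / 2) t := by
    refine exists_sol hb (A.good_PhiS (u0 := u0)) (sq.prodMk hσ) (fun p => ⟨q0 p, (σ0 p).1⟩)
      continuous_const ((sp.add (Imm.sm_const _)).continuous.min continuous_const) (fun p => ?_)
      (fun p => sub_const hb ?_) fun p => Sup.min ?_ (sup_const hb (up p t t0 ?_))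
    · have := le_min (show 0 ≤ t * ct 16 (-9) (θ p) + δ / 2 by linarith [a0 p]) t0
      exact ⟨neg_lt_zero.2 hu, (neg_lt_zero.2 hu).trans_le this, this⟩
    · rw [phi_one (by linarith)]
      exact mul_nonpos_of_nonneg_of_nonpos (half_pos (q0 p)).le
        (div_nonpos_of_nonpos_of_nonneg (by linarith [(σ0 p).1]) (by linarith))
    · rcases lt_or_ge (θ p) (9 / 16) with h3 | h3
      · refine sup_ev hb (s := δ / 2) ((ev_lt hθ h3).mono fun q hq => by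
          rw [ct_zero (by linarith)]; ring) (up p _ (by linarith) ?_)
        rw [h0 p (by linarith)]
        nlinarith
      rcases le_or_gt (θ p) (5 / 8) with h4 | h4
      · refine sup_of_sm hb (sp.add (Imm.sm_const _)) ?_
        rw [QQ_add_const]
        refine (abs_le.1 (hC p)).2.trans (le_trans ?_ (phi_ge hu (by linarith [a0 p])))
        rw [h0 p (by linarith), wq_top h3 h4]
        set r := t * ct 16 (-9) (θ p) + δ / 2
        have r0 : δ / 2 ≤ r := le_add_of_nonneg_left (a0 p)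
        have r1 : δ / 2 ≤ ((u0 + r) ^ 2 - (4 * 0 + u0 ^ 2)) / (u0 + r) :=
          r0.trans ((le_div_iff₀ (by linarith)).2 (by nlinarith))
        have r2 := mul_le_mul (mul_le_mul_of_nonneg_right (Q0 p) (sq_nonneg y⁻¹)) r1
          (by linarith) (mul_nonneg (hκ.trans_le (Q0 p)).le (sq_nonneg _))
        linarith
      · refine sup_ev hb (s := t + δ / 2) ((ev_gt hθ h4).mono fun q hq => by
          rw [ct_one (by linarith)]; ring) (up p _ (by linarith) ?_)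
        nlinarith [(σ0 p).2]
    · linarith [(σ0 p).2]
  obtain ⟨u, hu', H⟩ := key
  have hd := hδ (fun p => (Q p * wq y (θ p), σ p)) u hu'
    (fun p => ⟨(neg_lt_zero.2 hu).trans_le (H p).2.1, (H p).1⟩) fun p hp =>
      ⟨by rw [wq_out (Or.inl hp.le), mul_one], by
        have := (H p).2.2.trans (min_le_left _ _)
        rw [ct_zero (by linarith)] at this
        rw [sub_zero, abs_of_nonneg (H p).2.1]
        linarith⟩
  simp only [zero_add, sub_zero] at hd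
  have v0 : ∀ p, 0 ≤ ct 16 (-1) (θ p) * u p := fun p => mul_nonneg (ct_nonneg _ _ _) (H p).2.1
  have vz : ∀ p, θ p ≤ 1 / 16 → ct 16 (-1) (θ p) * u p = 0 := fun p hp => by
    rw [ct_zero (by linarith), zero_mul]
  refine ⟨y, fun q => ct 16 (-1) (θ q) * u q, y0, y1, (hθ.comp (contDiff_ct _ _)).mul hu',
    fun p => ⟨v0 p, ht ▸ pow_le_pow_left₀ (by linarith [v0 p]) ?_ 2, vz p, ?_, fun hp => ?_⟩⟩
  · linarith [mul_le_of_le_one_left (H p).2.1 (ct_le_one 16 (-1) (θ p)),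
      (H p).2.2.trans (min_le_right _ _)]
  · rw [dfc_eq (by linarith [v0 p])]; exact hd p
  · rw [dfc_eq (by linarith [v0 p]), dft_congr (w := fun _ => 0)
      ((ev_lt hθ hp).mono fun q hq => vz q hq.le) rfl, dft_const (by rw [h0 p (by linarith), z0])]

theorem slow_mono {U W Q Q' r j a G : ℝ} (hW : 1 ≤ W) (h0 : 0 ≤ Q) (h : Q ≤ Q') (hr : 0 ≤ r)
    (hj : 0 ≤ j) (ha : a ≤ 0) : slow U W Q 0 r j a G ≤ slow U W Q' 0 r 0 a G := by
  have h1 : 1 / W ^ 2 ≤ 1 := (div_le_one (by positivity)).2 (one_le_pow₀ hW)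
  have h2 := mul_le_mul_of_nonneg_right h (sub_nonneg.2 h1)
  have h3 : 7 / 8 * Q ^ 2 * r ^ 2 / (U ^ 2 / 4) ≤ 7 / 8 * Q' ^ 2 * r ^ 2 / (U ^ 2 / 4) := by gcongr
  have h4 : 2 * a * Q' * r / W ≤ 2 * a * Q * r / W :=
    div_le_div_of_nonneg_right (by
      nlinarith [mul_nonneg (mul_nonneg (neg_nonneg.2 ha) (sub_nonneg.2 h)) hr]) (by linarith)
  simp only [slow, mul_zero, zero_mul, zero_div]
  linarith [mul_nonneg h0 hj]

theorem gam_mul_le {w z : X → ℝ} (hw : M.Sm w) (hz : M.Sm z) (p : X) :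
    M.pre.gam (fun q => w q * z q) (fun q => w q * z q) p ≤
      9 / 8 * (z p ^ 2 * M.pre.gam w w p) + 9 * (w p ^ 2 * M.pre.gam z z p) := by
  simp only [Imm.gam_apply, Finset.mul_sum, ← Finset.sum_add_distrib,
    Imm.D_mul (hw.diffAt p) (hz.diffAt p)]
  exact Finset.sum_le_sum fun a _ => by
    nlinarith [sq_nonneg (z p * M.pre.D a w p - 8 * (w p * M.pre.D a z p))]

/-- the wall is cheap -/
theorem gam_wall (hθ : M.Sm θ) (hQ : M.Sm Q) {y : ℝ} (y0 : 0 < y) (y1 : y ≤ 1) {p : X}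
    (Q0 : 0 ≤ Q p) (h1 : M.pre.gam Q Q p ≤ Q p ^ 3 / 81)
    (h2 : 640000 * cc ^ 2 * M.pre.gam θ θ p ≤ Q p) :
    M.pre.gam (fun q => Q q * wq y (θ q)) (fun q => Q q * wq y (θ q)) p ≤
      (Q p * wq y (θ p)) ^ 3 / 64 := by
  obtain ⟨e, he, hb⟩ := hasDerivAt_wq y0 y1 (θ p)
  have q1 := one_le_wq y0 y1 (θ p)
  refine (gam_mul_le hQ (hθ.comp (contDiff_wq y0 y1)) p).trans ?_
  rw [gam_comp_self hθ he]
  set w := wq y (θ p)
  have a1 : w ^ 2 * M.pre.gam Q Q p ≤ w ^ 3 * (Q p ^ 3 / 81) :=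
    mul_le_mul (pow_le_pow_right₀ q1 (by norm_num)) h1 (Imm.gam_self_nonneg _ _) (by positivity)
  have a2 : e ^ 2 * M.pre.gam θ θ p ≤ w ^ 3 * (Q p / 5625) := by
    have := mul_le_mul_of_nonneg_left h2 (show 0 ≤ w ^ 3 by positivity)
    linarith [mul_le_mul_of_nonneg_right hb (Imm.gam_self_nonneg (M := M) θ p)]
  have a3 := mul_le_mul_of_nonneg_left a2 (sq_nonneg (Q p))
  have a4 : 0 ≤ w ^ 3 * Q p ^ 3 := by positivity
  nlinarith

end Crest.Agent.N228.I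

end
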