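import Crest.Agent.N228.I.O1
import Crest.Agent.N228.I.O2

/-! # Row 228 (helper72): the geometric instance of `N228.A.Wd` -/

set_option autoImplicit false
set_option linter.unusedSectionVars false
open Set Filter Topology Function
open scoped ContDiff
open Crest.Agent.N222 Crest.Agent.N222.A Crest.Agent.N228.Cf

noncomputable section

namespace Crest.Agent.N228.I

variable {d : ℕ} {X : Type} [TopologicalSpace X]

/-- immersions with a drift, over a fixed atlas -/
structure St (ch : X → OpenPartialHomeomorph X (E (Fin d))) : Type 1 where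
  ι : Type
  [fi : Fintype ι]
  [de : DecidableEq ι]
  M : Imm d ι X
  b : ι → X → ℝ
  ch : M.ch = ch
  sm : ∀ a, M.Sm (b a)
  tan : M.pre.Tan b

attribute [instance] St.fi St.de

variable {ch : X → OpenPartialHomeomorph X (E (Fin d))}

/-- the curvature term minus the spectators -/
def St.ee (st : St ch) {J : Type} [Fintype J] (f0 : J → X → ℝ) (x : X) : ℝ :=
  st.M.pre.Eb st.b x - ∑ j, st.M.pre.gam (f0 j) (f0 j) x

theorem St.ee_le {st st' : St ch} {J : Type} [Fintype J] {f0 : J → X → ℝ} (h0 : ∀ j, SmA ch (f0 j))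
    {x : X} {k : ℝ} (h : ∀ f, st.M.Sm f → st'.M.pre.gam f f x ≤ k * st.M.pre.gam f f x) :
    st'.M.pre.Eb st'.b x - k * (st.M.pre.Eb st.b x - st.ee f0 x) ≤ st'.ee f0 x := by
  rw [St.ee, St.ee, sub_sub_cancel, Finset.mul_sum]
  exact sub_le_sub_left (Finset.sum_le_sum fun j _ => h _ ((alg_sm st.ch).1 (h0 j))) _

/-- **the instance**: nothing is lost on `5 ≤ om` -/
def world [T2Space X] (ch : X → OpenPartialHomeomorph X (E (Fin d))) (L : Set X) {om : X → ℝ}
    (ho : SmA ch om) (hc : IsCompact {p | om p ≤ 5}) {J : Type} [Fintype J] {f0 : J → X → ℝ}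
    (h0 : ∀ j, SmA ch (f0 j)) : A.Wd d where
  Z := X
  A := alg ch
  L := L
  om := om
  om_sm := ho
  St := St ch
  pt st := pt st.M st.ch
  pt_p _ _ := rfl
  E st := st.ee f0
  R st st' := Nx {p | 5 ≤ om p} st.M st.b st'.M st'.b
  R_refl st := Nx.refl _ _ _
  R_trans := Nx.trans
  trace st x vs c _ _ h := trace_le st.M vs c x fun g hg => h g ((alg_sm st.ch).2 hg)
  pstep st Q σ a κ z s u0 ε hQ hσ ha hκ Q0 hz σ0 h1 hu hε h2 := by
    have sm := fun {f} => (alg_sm (f := f) st.ch).1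
    obtain ⟨v, m, M', b', hs, hn, hv, H⟩ := o1 st.sm st.tan (sm ho) hc (sm hQ) (sm hσ) (sm ha) hκ Q0
      hz σ0 h1 hu hε
    refine ⟨v, ⟨_, M', b', hs.ch.trans st.ch, hs.sm, hs.tan⟩, hn, (alg_sm st.ch).2 hv,
      fun x => ⟨(H x).1, (H x).2.1⟩, fun x => (H x).2.2.1, fun x hx =>
        ⟨fun f h hf hh => hs.gam_zg hv (sm hf) (sm hh) x, fun j j0 k1 k2 => le_trans ?_
          (St.ee_le h0 (st := st) (k := Real.exp (z * v x ^ 2 / 2)) fun f hf => ?_)⟩⟩
    · have := (H x).2.2.2 (h2 x hx) j j0 k1 k2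
      simp only [pt]
      linarith
    · exact (hs.gam_le hv hf x).trans_eq (by rw [cq]; ring_nf)
  buf st θ Γm lam ε hθ hΓ hl hε h5 h1 := by
    have sm := fun {f} => (alg_sm (f := f) st.ch).1
    obtain ⟨M', b', δ, w, Ω, c1, c2, c3, δ0, hx, sw, H⟩ :=
      o2 st.sm st.tan (sm hθ) hc (fun p hp => not_lt.1 fun h => hp.not_ge (h5 p (le_of_lt h))) hΓ hl hε
    refine ⟨w, Ω, ⟨_, M', b', c1.trans st.ch, c2, c3⟩, ⟨c1, fun hi p q e => hi (PiLp.ext fun a =>
      mul_left_cancel₀ δ0.ne' (by rw [← hx, ← hx, e])), fun p hp f g _ _ => ((H p).1 (h5 p hp)).1 f g,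
      fun p hp => ((H p).1 (h5 p hp)).2.ge⟩, (alg_sm st.ch).2 sw, fun x hx => ?_⟩
    obtain ⟨-, a1, a2, a3, a4, a5, a6, a7, a8, a9⟩ := H x
    refine ⟨a1, fun h => (a2 h).1, a3, a4, a5, fun f hf => a6 f (sm hf), a7,
      fun h => le_trans ?_ (St.ee_le h0 a6), le_trans ?_ (St.ee_le h0 a6)⟩
    · have := a8 (Or.inl h)
      rw [(a2 h).2] at this ⊢
      linarith
    · linarith [a9 (h1 x hx)]

end Crest.Agent.N228.I

end
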